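import Vale.Agent.P297.H940.Z2.Bir
import Vale.Agent.P297.H424.Z2.Nodes

/-!
The lines through the nodes at infinity of the double solid `T_l`.
-/

set_option linter.unusedSectionVars false
set_option linter.unusedVariables false

namespace Vale.Agent.P297.Z2

open Vale.Agent.P297.H160.Z2Irr

/-! ### The identity on the lines -/

section line

variable {R : Type} [CommRing R]

/-- The relations between the data of a node and the parameters. -/
structure Rl (d : TD R) (P0 P1 P2 Q0 Q1 u v m n : R) : Prop where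
  e : d.e = d.be - d.al
  l : d.l + d.e = 1
  hA : d.al * d.A = d.be * P2
  hC : d.be * d.C = d.al * P0
  hAC : d.A * d.C = P0 * P2
  nod : d.al * Q0 - d.be * Q1 = d.l * (d.A + d.C - P1)
  pn : d.pn = d.al * u - d.C
  rn : d.rn = -(d.be * v) - d.A
  kp : d.kp = d.al * d.be * (Q0 - d.l * (u + v)) + d.l * d.e * d.A
  kr : d.kr = d.al * d.be * (Q1 - d.l * (u + v)) + d.l * d.e * d.C
  w0 : d.w0 = -(d.al * d.be * (m - d.l * n)) + 2 * d.l * d.e * d.A * d.C -
    d.l * d.e * d.al * d.be * u * v - d.l * d.al * (2 * d.be - d.al) * d.A * u -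
    d.l * d.be * (2 * d.al - d.be) * d.C * v

variable {d : TD R} {P0 P1 P2 Q0 Q1 u v m n : R}

theorem Rl.G2 (h : Rl d P0 P1 P2 Q0 Q1 u v m n) (p r y : R) :
    (d.al * y + p) * (-(d.be * y) + r) - P0 * P2 +
      d.be * ((y + v) * (d.al * y + p) + P2 * (y + u)) =
    d.al * (r - d.rn) * y + d.g2 p r := by
  unfold TD.g2
  rw [h.rn, h.pn]
  linear_combination (-(y + u)) * h.hA + h.hAC

theorem Rl.G3 (h : Rl d P0 P1 P2 Q0 Q1 u v m n) (p r y : R) :
    (d.al * y + p) * (-(d.be * y) + r) - P0 * P2 -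
      d.al * ((y + u) * (-(d.be * y) + r) + P0 * (y + v)) =
    -(d.be * (p - d.pn) * y) + d.g3 p r := by
  unfold TD.g3
  rw [h.rn, h.pn]
  linear_combination (y + v) * h.hC + h.hAC

theorem Rl.J (h : Rl d P0 P1 P2 Q0 Q1 u v m n) (p r y : R) :
    d.al * d.be * (((d.al * y + p) + (-(d.be * y) + r)) ^ 2 + (2 * y + Q0) * (d.al * y + p) +
      (2 * y + Q1) * (-(d.be * y) + r) - (m - y ^ 2) -
      d.l * ((y + u) * (d.al * y + p) + (y + v) * (-(d.be * y) + r) - (n - y ^ 2 + P1 * y))) =
    d.al * d.be * d.l * ((p - d.pn) + (r - d.rn)) * y + d.jn p r := by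
  have hl := h.l
  rw [h.e] at hl
  unfold TD.jn TD.ka TD.W TD.g2 TD.g3
  rw [h.w0, h.kp, h.kr, h.pn, h.rn, h.e]
  linear_combination (-(d.al * d.be * ((d.al - d.be + 1) * y ^ 2 + 2 * (p + r) * y))) * hl +
    d.al * d.be * y * h.nod

/-- **The branch quartic on the lines through the node.** -/
theorem Rl.line (h : Rl d P0 P1 P2 Q0 Q1 u v m n) (D : Dat R) (p r y : R) (hU : D.U = y + u)
    (hV : D.V = y + v) (ha : D.a = 2 * y + Q0) (hc : D.c = 2 * y + Q1)
    (he : D.e = n - y ^ 2 + P1 * y) (hm : D.m = m - y ^ 2) (hA : D.A = P0) (hB : D.B = P2) :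
    (d.al * d.be) ^ 2 * D.Bq d.l (d.al * y + p) (-(d.be * y) + r) =
      (d.al * d.be) ^ 2 * d.B2 p r * y ^ 2 + d.al * d.be * d.b1 p r * y + d.b0 p r := by
  have h2 := h.G2 p r y
  have h3 := h.G3 p r y
  have hJ := h.J p r y
  have hN : (d.al * y + p) * (-(d.be * y) + r) - P0 * P2 =
      -(d.al * d.be * y ^ 2) + (d.al * r - d.be * p) * y + (p * r - d.A * d.C) := by
    linear_combination h.hAC
  have hl := h.l
  have e1 : D.N (d.al * y + p) (-(d.be * y) + r) =
      -(d.al * d.be * y ^ 2) + (d.al * r - d.be * p) * y + (p * r - d.A * d.C) := by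
    unfold Dat.N
    rw [hA, hB, ← hN]
  have e2 : d.be * D.E (d.al * y + p) = d.al * (r - d.rn) * y + d.g2 p r -
      D.N (d.al * y + p) (-(d.be * y) + r) := by
    rw [e1, ← hN]
    unfold Dat.E
    rw [hB, hU, hV]
    linear_combination h2
  have e3 : d.al * D.F (-(d.be * y) + r) = D.N (d.al * y + p) (-(d.be * y) + r) +
      d.be * (p - d.pn) * y - d.g3 p r := by
    rw [e1, ← hN]
    unfold Dat.F
    rw [hA, hU, hV]
    linear_combination -h3
  have e4 : d.al * d.be * (D.J0 (d.al * y + p) (-(d.be * y) + r) -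
      d.l * D.J1 (d.al * y + p) (-(d.be * y) + r)) =
      d.al * d.be * d.l * ((p - d.pn) + (r - d.rn)) * y + d.jn p r := by
    rw [← hJ]
    unfold Dat.J0 Dat.J1
    rw [ha, hc, hm, hU, hV, he]
  unfold Dat.Bq Dat.K
  rw [e1] at e2 e3 ⊢
  generalize D.E (d.al * y + p) = E at e2 ⊢
  generalize D.F (-(d.be * y) + r) = F at e3 ⊢
  generalize D.J0 (d.al * y + p) (-(d.be * y) + r) = j0 at e4 ⊢
  generalize D.J1 (d.al * y + p) (-(d.be * y) + r) = j1 at e4 ⊢
  unfold TD.b1 TD.b0 TD.B2
  unfold TD.jn at e4 ⊢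
  have hW : d.W p r = d.ka p r + d.l * d.e * (p - d.pn) * (r - d.rn) := by
    unfold TD.ka
    ring
  rw [hW]
  generalize d.ka p r = κ at e4 ⊢
  generalize d.g2 p r = g2 at e2 e4 ⊢
  generalize d.g3 p r = g3 at e3 e4 ⊢
  generalize p - d.pn = π at e3 e4 ⊢
  generalize r - d.rn = ρ at e2 e4 ⊢
  have h5 := h.e
  generalize d.al = al at *
  generalize d.be = be at *
  generalize d.e = e at *
  generalize d.l = l at *
  linear_combination (al * be * (j0 - l * j1) + (al * be * l * (π + ρ) * y +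
      (l * be * g2 - l * al * g3 + κ)) - 4 * al * be *
        (-(al * be * y ^ 2) + (al * r - be * p) * y + (p * r - d.A * d.C))) * e4 +
    (4 * al ^ 2 * be * l * (-(al * be * y ^ 2) + (al * r - be * p) * y + (p * r - d.A * d.C)) -
      4 * al * be * (l ^ 2 - l) * (al * F)) * e2 +
    (4 * al * be ^ 2 * l * (-(al * be * y ^ 2) + (al * r - be * p) * y + (p * r - d.A * d.C)) -
      4 * al * be * (l ^ 2 - l) * (al * ρ * y + g2 -
        (-(al * be * y ^ 2) + (al * r - be * p) * y + (p * r - d.A * d.C)))) * e3 -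
    4 * al * be * l * (al * ρ * y + g2 -
        (-(al * be * y ^ 2) + (al * r - be * p) * y + (p * r - d.A * d.C))) *
      ((-(al * be * y ^ 2) + (al * r - be * p) * y + (p * r - d.A * d.C)) -
        (-(be * π * y) + g3)) * hl +
    4 * al * be * l * ((-(al * be * y ^ 2) + (al * r - be * p) * y + (p * r - d.A * d.C)) *
      (al * ρ * y + g2) + (-(al * be * y ^ 2) + (al * r - be * p) * y + (p * r - d.A * d.C)) *
      (-(be * π * y) + g3) -
      (-(al * be * y ^ 2) + (al * r - be * p) * y + (p * r - d.A * d.C)) ^ 2) * h5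

end line

/-! ### The data of a node -/

section node

variable {k : Type} [Field k] [Algebra ℂ k] (P : Par)

/-- The data of the node `(al : -be : 1)` of `T_l`. -/
noncomputable def ntd (l al be : k) : TD k where
  al := al
  be := be
  l := l
  e := be - al
  A := be * algebraMap ℂ k P.P2 / al
  C := al * algebraMap ℂ k P.P0 / be
  pn := al * algebraMap ℂ k P.u - al * algebraMap ℂ k P.P0 / be
  rn := -(be * algebraMap ℂ k P.v) - be * algebraMap ℂ k P.P2 / al
  kp := al * be * (algebraMap ℂ k P.Q0 - l * (algebraMap ℂ k P.u + algebraMap ℂ k P.v)) +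
    l * (be - al) * (be * algebraMap ℂ k P.P2 / al)
  kr := al * be * (algebraMap ℂ k P.Q1 - l * (algebraMap ℂ k P.u + algebraMap ℂ k P.v)) +
    l * (be - al) * (al * algebraMap ℂ k P.P0 / be)
  w0 := -(al * be * (algebraMap ℂ k P.m - l * algebraMap ℂ k P.n)) +
    2 * l * (be - al) * (be * algebraMap ℂ k P.P2 / al) * (al * algebraMap ℂ k P.P0 / be) -
    l * (be - al) * al * be * algebraMap ℂ k P.u * algebraMap ℂ k P.v -
    l * al * (2 * be - al) * (be * algebraMap ℂ k P.P2 / al) * algebraMap ℂ k P.u -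
    l * be * (2 * al - be) * (al * algebraMap ℂ k P.P0 / be) * algebraMap ℂ k P.v

variable {P} {l al be : k}

theorem ntd_e : (ntd P l al be).e = (ntd P l al be).be - (ntd P l al be).al := rfl

theorem IsNode.rl (h : IsNode P l al be) : Rl (ntd P l al be) (algebraMap ℂ k P.P0)
    (algebraMap ℂ k P.P1) (algebraMap ℂ k P.P2) (algebraMap ℂ k P.Q0) (algebraMap ℂ k P.Q1)
    (algebraMap ℂ k P.u) (algebraMap ℂ k P.v) (algebraMap ℂ k P.m) (algebraMap ℂ k P.n) := by
  have ha := h.al0
  have hb := h.be0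
  refine ⟨rfl, ?_, ?_, ?_, ?_, ?_, rfl, rfl, rfl, rfl, rfl⟩
  · change l + (be - al) = 1
    rw [h.sub]
    ring
  · change al * (be * algebraMap ℂ k P.P2 / al) = be * algebraMap ℂ k P.P2
    field_simp
  · change be * (al * algebraMap ℂ k P.P0 / be) = al * algebraMap ℂ k P.P0
    field_simp
  · change be * algebraMap ℂ k P.P2 / al * (al * algebraMap ℂ k P.P0 / be) = _
    field_simp
  · change al * algebraMap ℂ k P.Q0 - be * algebraMap ℂ k P.Q1 =
      l * (be * algebraMap ℂ k P.P2 / al + al * algebraMap ℂ k P.P0 / be - algebraMap ℂ k P.P1)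
    field_simp
    linear_combination h.cub

/-- **The branch quartic on the lines through the node.** -/
theorem IsNode.tB_line (hM : P.M1 = 0) (h : IsNode P l al be) (p r y : k) :
    (al * be) ^ 2 * tB P l (al * y + p) (-be * y + r) y =
      (al * be) ^ 2 * (ntd P l al be).B2 p r * y ^ 2 + al * be * (ntd P l al be).b1 p r * y +
        (ntd P l al be).b0 p r := by
  have h1 := h.rl.line (dat P y) p r y rfl rfl rfl rfl rfl
    (by
      change fm P y = _
      unfold fm
      rw [hM, map_zero]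
      ring) rfl rfl
  have h2 : -be * y = -(be * y) := by ring
  unfold tB
  rw [h2]
  exact h1

end node

section nline

variable {N : Type} [Field N] [Algebra ℂ N] {P : Par} {l al be p r s s' : N}

open Polynomial

theorem eval_tB (l z : N) (p r y : N[X]) :
    (tB P (C l) p r y).eval z = tB P l (p.eval z) (r.eval z) (y.eval z) := by
  have h := map_tB P ((aeval z).restrictScalars ℂ : N[X] →ₐ[ℂ] N) (C l) p r y
  simp only [AlgHom.restrictScalars_apply, coe_aeval_eq_eval, eval_C] at h
  exact h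

theorem eval_tPhi (l z : N) (p r y S : N[X]) :
    (tPhi P (C l) p r y S).eval z = tPhi P l (p.eval z) (r.eval z) (y.eval z) (S.eval z) := by
  have h := map_tPhi P ((aeval z).restrictScalars ℂ : N[X] →ₐ[ℂ] N) (C l) p r y S
  simp only [AlgHom.restrictScalars_apply, coe_aeval_eq_eval, eval_C] at h
  exact h

/-- The second coefficient of the component. -/
noncomputable def sp (P : Par) (l al be p r s : N) : N := (ntd P l al be).b1 p r / (2 * s * (al * be))

/-- **The tangent lines are components.** -/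
theorem nline_of [CharZero N] (hM : P.M1 = 0) (h : IsNode P l al be)
    (hd : (ntd P l al be).b1 p r ^ 2 = 4 * (ntd P l al be).B2 p r * (ntd P l al be).b0 p r)
    (hs : s ^ 2 = (ntd P l al be).B2 p r) (hs0 : s ≠ 0) :
    NLine P l al be p r s (sp P l al be p r s) := by
  refine ⟨h, Polynomial.funext fun z => ?_⟩
  rw [eval_tB]
  simp only [eval_add, eval_mul, eval_C, eval_X, eval_pow]
  have ha := h.al0
  have hb := h.be0
  have hab : (al * be) ^ 2 ≠ 0 := pow_ne_zero 2 (mul_ne_zero ha hb)
  have h1 := h.tB_line hM p r z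
  apply mul_left_cancel₀ hab
  rw [h1, ← hs]
  have e1 : al * be * (2 * s * sp P l al be p r s) = (ntd P l al be).b1 p r := by
    unfold sp
    field_simp
  have e2 : (al * be * sp P l al be p r s) ^ 2 = (ntd P l al be).b0 p r := by
    have h4 : (4 : N) * s ^ 2 ≠ 0 := mul_ne_zero (by norm_num) (pow_ne_zero 2 hs0)
    apply mul_left_cancel₀ h4
    rw [hs] at h4 ⊢
    rw [← hd, ← e1, ← hs]
    ring
  rw [← e2, ← e1]
  ring

/-- The equations of a component. -/
theorem NLine.facts [CharZero N] (hM : P.M1 = 0) (h : NLine P l al be p r s s') :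
    s ^ 2 = (ntd P l al be).B2 p r ∧ 2 * s * s' * (al * be) = (ntd P l al be).b1 p r ∧
      (al * be * s') ^ 2 = (ntd P l al be).b0 p r := by
  have ha := h.node.al0
  have hb := h.node.be0
  have hab : al * be ≠ 0 := mul_ne_zero ha hb
  have key : ∀ z : N, (al * be) ^ 2 * (s * z + s') ^ 2 =
      (al * be) ^ 2 * (ntd P l al be).B2 p r * z ^ 2 + al * be * (ntd P l al be).b1 p r * z +
        (ntd P l al be).b0 p r := by
    intro z
    rw [← h.node.tB_line hM p r z]
    have h1 := congrArg (fun f => eval z f) h.eq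
    simp only [eval_tB] at h1
    simp only [eval_add, eval_mul, eval_C, eval_X, eval_pow] at h1
    rw [h1]
  have k0 := key 0
  have k1 := key 1
  have k2 := key (-1)
  refine ⟨?_, ?_, ?_⟩
  · apply mul_left_cancel₀ (pow_ne_zero 2 hab)
    linear_combination k1 / 2 + k2 / 2 - k0
  · apply mul_left_cancel₀ hab
    linear_combination k1 / 2 - k2 / 2
  · linear_combination k0

theorem NLine.disc [CharZero N] (hM : P.M1 = 0) (h : NLine P l al be p r s s') :
    (ntd P l al be).b1 p r ^ 2 = 4 * (ntd P l al be).B2 p r * (ntd P l al be).b0 p r := by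
  obtain ⟨h1, h2, h3⟩ := h.facts hM
  rw [← h1, ← h2, ← h3]
  ring

theorem NLine.s'_eq [CharZero N] (hM : P.M1 = 0) (h : NLine P l al be p r s s') (hs : s ≠ 0) :
    s' = sp P l al be p r s := by
  have ha := h.node.al0
  have hb := h.node.be0
  obtain ⟨h1, h2, h3⟩ := h.facts hM
  unfold sp
  rw [← h2]
  field_simp

end nline

end Vale.Agent.P297.Z2
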