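import Vale.Agent.P297.H940.Z2.Map
import Vale.Agent.P297.H54.T8Tri
import Vale.Agent.P297.H288.KMain

/-!
The cycles of the lines through the nodes as functions on the quartics: naturality and the first
relation.
-/

set_option linter.unusedSectionVars false
set_option linter.unusedVariables false

open Polynomial IntermediateField

namespace Vale.Agent.P297.Z2

open Vale.Agent.P297 Vale.Agent.P297.Gen Vale.Agent.P297.H72 Vale.Agent.P297.H839
open Vale.Agent.P297.H160.Z2Irr Vale.Agent.P297.G4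

section rel

variable {K : Type} [Field K] [Algebra ℂ K] {N : Type} [Field N] [Algebra ℂ N] [IsAlgClosed N]
  {P : Par} {x₀ : Fin 5 → K} {m : ℤ} {l al be X w v : N}

/-- The constant of the conic `w² = q2 X` does not vanish. -/
theorem ntd_AC (hc : NC P) (hn : IsNode P l al be) :
    4 * (ntd P l al be).al * (ntd P l al be).be * (ntd P l al be).A * (ntd P l al be).C ≠ 0 := by
  have hA := hn.rl.hAC
  have : CharZero N := charZero_of_injective_algebraMap (algebraMap ℂ N).injective
  have h1 : (algebraMap ℂ N P.P0) ≠ 0 := (_root_.map_ne_zero _).2 hc.P0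
  have h2 : (algebraMap ℂ N P.P2) ≠ 0 := (_root_.map_ne_zero _).2 hc.P2
  rw [mul_assoc (4 * (ntd P l al be).al * (ntd P l al be).be), hA]
  exact mul_ne_zero (mul_ne_zero (mul_ne_zero (by norm_num) hn.al0) hn.be0) (mul_ne_zero h1 h2)

/-- An automorphism that fixes the index of the node fixes its data. -/
theorem fix_node (hc : NC P) (hl : Transcendental ℂ l) (hn : IsNode P l al be) (g : N ≃ₐ[ℂ] N)
    (hg : g (al / be) = al / be) : g l = l ∧ g al = al ∧ g be = be := by
  obtain ⟨h1, h2⟩ := be_of_isNode hc hl hn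
  have hb : g be = be := by
    rw [h1]
    have h3 := map_nbe (P := P) g.toAlgHom (al / be)
    change g (nbe P (al / be)) = nbe P (g (al / be)) at h3
    rw [h3, hg]
  have hb0 := hn.be0
  have ha : g al = al := by
    have h3 : al = al / be * be := by field_simp
    rw [h3, map_mul, hg, hb]
  refine ⟨?_, ha, hb⟩
  have h4 : l = 1 - be + al := by linear_combination hn.sub
  rw [h4, map_add, map_sub, map_one, ha, hb]

theorem idx_mem (hc : NC P) (hl : Transcendental ℂ l) (hn : IsNode P l al be) :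
    al / be ∈ cl0 ({l} : Set N) := mem_cl0_of_root hc hl (tC_of_isNode hn)

theorem idx_tr (hc : NC P) (hl : Transcendental ℂ l) (hn : IsNode P l al be) :
    Transcendental ℂ (al / be) := root_tr hc hl (tC_of_isNode hn)

/-- `X + w` is independent of the index. -/
theorem ind_Xw (hc : NC P) (hl : Transcendental ℂ l) (hn : IsNode P l al be)
    (hX : X ∉ cl0 ({l} : Set N)) (hw : w ^ 2 = (ntd P l al be).q2 X) :
    AlgebraicIndependent ℂ ![al / be, X + w] := by
  have : CharZero N := charZero_of_injective_algebraMap (algebraMap ℂ N).injective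
  rw [H288.indep_iff]
  refine ⟨idx_tr hc hl hn, fun h => hX ?_⟩
  have hsub : cl0 ({al / be} : Set N) ≤ cl0 ({l} : Set N) :=
    cl0_le (cl0_closed _) (by
      rintro x hx
      rw [Set.mem_singleton_iff.1 hx]
      exact idx_mem hc hl hn)
  have h1 : X + w ∈ cl0 ({l} : Set N) := hsub h
  obtain ⟨hb, ha⟩ := be_of_isNode hc hl hn
  have ht := idx_mem hc hl hn
  have hk : (X + w) * (X - w) = 4 * (ntd P l al be).al * (ntd P l al be).be *
      (ntd P l al be).A * (ntd P l al be).C := by
    have h2 := hw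
    unfold TD.q2 at h2
    linear_combination -h2
  have hk0 := ntd_AC hc hn
  have hne : X + w ≠ 0 := by
    intro h0
    rw [h0, zero_mul] at hk
    exact hk0 hk.symm
  have hcm : ∀ z : ℂ, algebraMap ℂ N z ∈ cl0 ({l} : Set N) := fun z =>
    IntermediateField.algebraMap_mem _ _
  have hbm : be ∈ cl0 ({l} : Set N) := by
    rw [hb]
    unfold nbe tD tq tg
    refine div_mem ?_ ?_
    · exact add_mem (sub_mem (mul_mem (hcm _) (pow_mem ht 2)) (mul_mem (hcm _) ht)) (hcm _)
    · exact add_mem (mul_mem (sub_mem (one_mem _) ht)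
        (add_mem (sub_mem (mul_mem (hcm _) (pow_mem ht 2)) (mul_mem (hcm _) ht)) (hcm _)))
        (mul_mem ht (sub_mem (mul_mem (hcm _) ht) (hcm _)))
  have ham : al ∈ cl0 ({l} : Set N) := by
    have hb0 := hn.be0
    have h3 : al = al / be * be := by field_simp
    rw [h3]
    exact mul_mem ht hbm
  have hkm : 4 * (ntd P l al be).al * (ntd P l al be).be * (ntd P l al be).A *
      (ntd P l al be).C ∈ cl0 ({l} : Set N) := by
    have h4 : (4 : N) ∈ cl0 ({l} : Set N) := by
      have h5 := hcm 4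
      rwa [map_ofNat] at h5
    exact mul_mem (mul_mem (mul_mem (mul_mem h4 ham) hbm) (div_mem (mul_mem hbm (hcm _)) ham))
      (div_mem (mul_mem ham (hcm _)) hbm)
  have h2 : X - w ∈ cl0 ({l} : Set N) := by
    have h3 : X - w = (4 * (ntd P l al be).al * (ntd P l al be).be * (ntd P l al be).A *
      (ntd P l al be).C) / (X + w) := by
      rw [← hk]
      field_simp
    rw [h3]
    exact div_mem hkm h1
  have h3 : X = ((X + w) + (X - w)) / 2 := by ring
  rw [h3]
  refine div_mem (add_mem h1 h2) ?_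
  have h5 := hcm 2
  rwa [map_ofNat] at h5

/-- **[T2]** The lines `(X, w, v)` and `(X, w, -v)`. -/
theorem t2 (hc : NC P) (h4 : Algebra.trdeg ℂ N = 4) (hx : H160.Z2Irr.IsFF P x₀)
    (hl : Transcendental ℂ l) (hn : IsNode P l al be) (hX : X ∉ cl0 ({l} : Set N))
    (hw : w ^ 2 = (ntd P l al be).q2 X) (hv : v ^ 2 = qv (cq P l al be) X) :
    nbc P x₀ l al be X w v + nbc P x₀ l al be X w (-v) ∈ Rel m K N := by
  have : CharZero N := charZero_of_injective_algebraMap (algebraMap ℂ N).injective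
  refine H288.rel_of_pair h4 (ind_Xw hc hl hn hX hw) _ fun g hg1 hg2 => ?_
  obtain ⟨gl, ga, gb⟩ := fix_node hc hl hn g hg1
  have hk0 := ntd_AC hc hn
  have hk : (X + w) * (X - w) = 4 * (ntd P l al be).al * (ntd P l al be).be *
      (ntd P l al be).A * (ntd P l al be).C := by
    have h2 := hw
    unfold TD.q2 at h2
    linear_combination -h2
  have hne : X + w ≠ 0 := by
    intro h0
    rw [h0, zero_mul] at hk
    exact hk0 hk.symm
  have hgk : g (4 * (ntd P l al be).al * (ntd P l al be).be * (ntd P l al be).A *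
      (ntd P l al be).C) = 4 * (ntd P l al be).al * (ntd P l al be).be * (ntd P l al be).A *
      (ntd P l al be).C := by
    change g (4 * al * be * (be * algebraMap ℂ N P.P2 / al) * (al * algebraMap ℂ N P.P0 / be)) =
      4 * al * be * (be * algebraMap ℂ N P.P2 / al) * (al * algebraMap ℂ N P.P0 / be)
    simp only [map_mul, map_div₀, map_ofNat, ga, gb, AlgEquiv.commutes]
  have h1 : g (X - w) = X - w := by
    have h2 := congrArg g hk
    rw [map_mul, hg2, hgk, ← hk] at h2
    exact mul_left_cancel₀ hne h2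
  have gX : g X = X := by
    have h3 : X = ((X + w) + (X - w)) / 2 := by ring
    have h5 : g (((X + w) + (X - w)) / 2) = ((X + w) + (X - w)) / 2 := by
      rw [map_div₀, map_add, hg2, h1, map_ofNat]
    rw [← h3] at h5
    exact h5
  have gw : g w = w := by
    have h3 : w = ((X + w) - (X - w)) / 2 := by ring
    have h5 : g (((X + w) - (X - w)) / 2) = ((X + w) - (X - w)) / 2 := by
      rw [map_div₀, map_sub, hg2, h1, map_ofNat]
    rw [← h3] at h5
    exact h5
  have gv : g v ^ 2 = v ^ 2 := by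
    rw [← map_pow, hv]
    unfold qv
    simp only [map_add, map_mul, map_pow, gX]
    have h5 : ∀ j, g (cq P l al be j) = cq P l al be j := by
      intro j
      have h6 := map_cq P g.toAlgHom l al be j
      change g (cq P l al be j) = cq P (g l) (g al) (g be) j at h6
      rw [h6, gl, ga, gb]
    simp only [h5]
  rw [Finsupp.mapDomain_add, map_nbc hx, map_nbc hx, gl, ga, gb, gX, gw]
  rcases sq_eq_sq_iff_eq_or_eq_neg.1 gv with h5 | h5
  · rw [map_neg, h5]
  · rw [map_neg, h5, neg_neg, add_comm]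

end rel

/-! ### The cycles as functions of `(t, X, v)` -/

section star

variable {K : Type} [Field K] [Algebra ℂ K] {N : Type} [Field N] [Algebra ℂ N] [IsAlgClosed N]
  (P : Par) (x₀ : Fin 5 → K)

/-- `l` as a function of the index -/
noncomputable def lt (t : N) : N := tg P t / tD P t

theorem map_lt (f : N →ₐ[ℂ] N) (t : N) : f (lt P t) = lt P (f t) := by
  unfold lt
  rw [map_div₀, map_tg, map_tD]

noncomputable def q2t (t X : N) : N := (ntd P (lt P t) (nal P t) (nbe P t)).q2 X

theorem map_q2t (g : N ≃ₐ[ℂ] N) (t X : N) : g (q2t P t X) = q2t P (g t) (g X) := by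
  unfold q2t
  have h := TD.map_q2 (ntd P (lt P t) (nal P t) (nbe P t)) (g.toAlgHom : N →+* N) X
  rw [map_ntd', map_lt, map_nal, map_nbe] at h
  exact h

noncomputable def nbt (t X w v : N) : (K →ₐ[ℂ] N) →₀ ℤ :=
  nbc P x₀ (lt P t) (nal P t) (nbe P t) X w v

variable {P x₀}

theorem map_nbt (hx : H160.Z2Irr.IsFF P x₀) (g : N ≃ₐ[ℂ] N) (t X w v : N) :
    Finsupp.mapDomain (fun φ : K →ₐ[ℂ] N => g.toAlgHom.comp φ) (nbt P x₀ t X w v) =
      nbt P x₀ (g t) (g X) (g w) (g v) := by
  unfold nbt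
  rw [map_nbc hx]
  have h1 := map_lt P g.toAlgHom t
  have h2 := map_nal (P := P) g.toAlgHom t
  have h3 := map_nbe (P := P) g.toAlgHom t
  change g _ = _ at h1
  change g _ = _ at h2
  change g _ = _ at h3
  rw [h1, h2, h3]
  rfl

variable (P x₀)

/-- a square root -/
noncomputable def rt2 (a : N) : N := (IsAlgClosed.exists_pow_nat_eq a two_pos).choose

theorem rt2_sq (a : N) : rt2 a ^ 2 = a := (IsAlgClosed.exists_pow_nat_eq a two_pos).choose_spec

/-- **The sum over the two square roots of `q2 X`.** -/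
noncomputable def Bw (t X v : N) : (K →ₐ[ℂ] N) →₀ ℤ :=
  nbt P x₀ t X (rt2 (q2t P t X)) v + nbt P x₀ t X (-rt2 (q2t P t X)) v

variable {P x₀}

theorem Bw_eq {t X w v : N} (hw : w ^ 2 = q2t P t X) :
    Bw P x₀ t X v = nbt P x₀ t X w v + nbt P x₀ t X (-w) v := by
  have h1 : rt2 (q2t P t X) ^ 2 = w ^ 2 := by rw [rt2_sq, hw]
  unfold Bw
  rcases sq_eq_sq_iff_eq_or_eq_neg.1 h1 with h | h
  · rw [h]
  · rw [h, neg_neg, add_comm]

theorem map_Bw (hx : H160.Z2Irr.IsFF P x₀) (g : N ≃ₐ[ℂ] N) (t X v : N) :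
    Finsupp.mapDomain (fun φ : K →ₐ[ℂ] N => g.toAlgHom.comp φ) (Bw P x₀ t X v) =
      Bw P x₀ (g t) (g X) (g v) := by
  have h1 : g (rt2 (q2t P t X)) ^ 2 = q2t P (g t) (g X) := by
    rw [← map_pow, rt2_sq, map_q2t]
  rw [Bw_eq h1]
  unfold Bw
  rw [Finsupp.mapDomain_add, map_nbt hx, map_nbt hx, map_neg]

/-- **[STAR]** -/
theorem star3 {ι : Type} {m : ℤ} (hx : H160.Z2Irr.IsFF P x₀) (kap : ι → N) (c : ι → Fin 5 → N)
    (l : N) : H54.Star3 kap c l (Bw P x₀) (Rel m K N) := by
  intro L hL hLa n e X Y _ hperm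
  refine Rel.of_stable (H600.stable_of_fixed L hL hLa _ fun g hg => ?_)
  obtain ⟨σ, hσ⟩ := hperm g hg
  rw [H600.act_apply, Finsupp.mapDomain_finsetSum]
  have h1 : ∀ i, Finsupp.mapDomain (fun φ : K →ₐ[ℂ] N => g.toAlgHom.comp φ)
      (Bw P x₀ (e i) (X i) (Y i)) = Bw P x₀ (e (σ i)) (X (σ i)) (Y (σ i)) := by
    intro i
    rw [map_Bw hx, (hσ i).1, (hσ i).2.1, (hσ i).2.2]
  rw [Finset.sum_congr rfl fun i _ => h1 i]
  exact Equiv.sum_comp σ fun i => Bw P x₀ (e i) (X i) (Y i)

end star

end Vale.Agent.P297.Z2
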