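import Vale.Agent.P297.H940.Z2.GenLine
import Vale.Agent.P297.H940.Z2.T2

/-!
The general line through a node, in terms of the parameters.
-/

set_option linter.unusedSectionVars false
set_option linter.unusedVariables false

open Polynomial

namespace Vale.Agent.P297.Z2

open Vale.Agent.P297 Vale.Agent.P297.Gen
open Vale.Agent.P297.H160.Z2Irr Vale.Agent.P297.G4

section parity

variable {N : Type} [Field N] [Algebra ℂ N]

private theorem parity {t : N} (ht : Transcendental ℂ t) {f g : ℂ[X]} (hg : g ≠ 0) {c : ℂ} (hc : c ≠ 0) :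
    aeval t f ^ 2 ≠ algebraMap ℂ N c * t * aeval t g ^ 2 := by
  intro h
  have h1 : aeval t (f ^ 2 - C c * X * g ^ 2) = 0 := by
    simp only [map_sub, map_mul, map_pow, aeval_C, aeval_X]
    rw [h, sub_self]
  have h2 : f ^ 2 - C c * X * g ^ 2 = 0 := by
    by_contra hne
    exact tr_aeval_ne ht hne h1
  have h3 : f ^ 2 = C c * X * g ^ 2 := sub_eq_zero.1 h2
  have h4 := congrArg natDegree h3
  rw [natDegree_pow, natDegree_mul (mul_ne_zero (C_ne_zero.2 hc) X_ne_zero) (pow_ne_zero 2 hg),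
    natDegree_C_mul_X c hc, natDegree_pow] at h4
  omega

end parity

section inst

variable {N : Type} [Field N] [Algebra ℂ N] [IsAlgClosed N] {P : Par} {l al be : N}

private theorem aeval_tq (t : N) : aeval t (tq P (X : ℂ[X])) = tq P t := by
  have h := map_tq P (aeval t : ℂ[X] →ₐ[ℂ] N) X
  rw [aeval_X] at h
  exact h

private theorem aeval_tg (t : N) : aeval t (tg P (X : ℂ[X])) = tg P t := by
  have h := map_tg P (aeval t : ℂ[X] →ₐ[ℂ] N) X
  rw [aeval_X] at h
  exact h

private theorem tqX_ne (hc : NC P) : tq P (X : ℂ[X]) ≠ 0 := by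
  intro h
  have h1 := congrArg (fun f => coeff f 2) h
  simp only [tq, Polynomial.algebraMap_eq, coeff_add, coeff_sub, coeff_C_mul, coeff_X_pow, coeff_X,
    coeff_C, coeff_zero] at h1
  norm_num at h1
  exact hc.P0 h1

private theorem tgX_ne (hc : NC P) : tg P (X : ℂ[X]) ≠ 0 := by
  intro h
  have h1 := congrArg (fun f => coeff f 2) h
  have h2 := congrArg (fun f => coeff f 1) h
  have e : tg P (X : ℂ[X]) = C P.Q0 * X ^ 2 - C P.Q1 * X := by
    simp only [tg, Polynomial.algebraMap_eq]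
    ring
  rw [e] at h1 h2
  simp only [coeff_sub, coeff_C_mul, coeff_X_pow, coeff_X, coeff_zero] at h1 h2
  norm_num at h1 h2
  apply hc.Q
  rw [h1, h2]

/-- the relations in terms of the index -/
private theorem node_t (hc : NC P) (hl : Transcendental ℂ l) (hn : IsNode P l al be) :
    ∃ t : N, Transcendental ℂ t ∧ al = t * be ∧ be * tD P t = tq P t ∧ l * tD P t = tg P t ∧
      tD P t ≠ 0 ∧ t = al / be := by
  have h1 := idx_tr hc hl hn
  have h2 := tC_of_isNode hn
  obtain ⟨hb, ha⟩ := be_of_isNode hc hl hn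
  have hD := tD_ne hc h1
  refine ⟨al / be, h1, ?_, ?_, ?_, hD, rfl⟩
  · have := hn.be0
    field_simp
  · rw [eq_comm, ← div_eq_iff hD]
    exact hb.symm
  · rw [eq_comm, ← div_eq_iff hD]
    exact (l_eq hc h1 h2).symm

private theorem q40 (hc : NC P) (hl : Transcendental ℂ l) (hn : IsNode P l al be) :
    4 * al * be + l ^ 2 ≠ 0 := by
  obtain ⟨t, ht, ha, hb, hlt, hD, -⟩ := node_t hc hl hn
  intro h
  refine parity ht (f := tg P X) (g := tq P X) (tqX_ne hc) (c := -4) (by norm_num) ?_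
  rw [aeval_tg, aeval_tq, ← hlt, ← hb, map_neg, map_ofNat]
  rw [ha] at h
  linear_combination tD P t ^ 2 * h

/-- `q2` and `M1` have no common zero -/
private theorem nczero (hc : NC P) (hl : Transcendental ℂ l) (hn : IsNode P l al be) {x : N}
    (hq : (ntd P l al be).q2 x = 0) : (ntd P l al be).M1 x ≠ 0 := by
  have : CharZero N := charZero_of_injective_algebraMap (algebraMap ℂ N).injective
  obtain ⟨t, ht, ha, hb, hlt, hD, -⟩ := node_t hc hl hn
  intro hM
  have hr := hn.rl
  have hx : x ^ 2 = 4 * al * be * (algebraMap ℂ N P.P0 * algebraMap ℂ N P.P2) := by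
    unfold TD.q2 at hq
    have h1 := hr.hAC
    change x ^ 2 - 4 * al * be * (ntd P l al be).A * (ntd P l al be).C = 0 at hq
    linear_combination hq + 4 * al * be * h1
  have hM2 : l * x = al * be * (algebraMap ℂ N P.Q0 - algebraMap ℂ N P.Q1) -
      l * (be * algebraMap ℂ N P.P2 + al * algebraMap ℂ N P.P0) := by
    unfold TD.M1 TD.t0 at hM
    rw [hr.kp, hr.kr, hr.e] at hM
    have h1 := hr.hA
    have h2 := hr.hC
    change al * be * (algebraMap ℂ N P.Q1 - l * (algebraMap ℂ N P.u + algebraMap ℂ N P.v)) +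
      l * (be - al) * (ntd P l al be).C -
      (al * be * (algebraMap ℂ N P.Q0 - l * (algebraMap ℂ N P.u + algebraMap ℂ N P.v)) +
      l * (be - al) * (ntd P l al be).A) +
      l * (x + be * (ntd P l al be).A + al * (ntd P l al be).C) = 0 at hM
    change al * (ntd P l al be).A = be * algebraMap ℂ N P.P2 at h1
    change be * (ntd P l al be).C = al * algebraMap ℂ N P.P0 at h2
    linear_combination hM - l * h1 - l * h2
  refine parity ht (f := X * (tq P X * C (P.Q0 - P.Q1) -
    (C P.Q0 * X - C P.Q1) * (C P.P2 + C P.P0 * X))) (g := tg P X) (tgX_ne hc)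
    (c := 4 * (P.P0 * P.P2)) (mul_ne_zero (by norm_num) (mul_ne_zero hc.P0 hc.P2)) ?_
  rw [aeval_tg]
  simp only [map_mul, map_sub, map_add, aeval_tq t, aeval_X, aeval_C, map_ofNat]
  have hg : tg P t = t * (algebraMap ℂ N P.Q0 * t - algebraMap ℂ N P.Q1) := rfl
  have hbe := hn.be0
  have e1 : t * (tq P t * (algebraMap ℂ N P.Q0 - algebraMap ℂ N P.Q1) -
      (algebraMap ℂ N P.Q0 * t - algebraMap ℂ N P.Q1) *
        (algebraMap ℂ N P.P2 + algebraMap ℂ N P.P0 * t)) =
      tD P t * (l * x / be) := by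
    rw [hM2, ha, ← hb]
    field_simp
    linear_combination (-(algebraMap ℂ N P.P2 + algebraMap ℂ N P.P0 * t)) * (hg.symm.trans hlt.symm)
  rw [e1, ← hlt, div_eq_mul_inv]
  have e2 : (x * be⁻¹) ^ 2 = 4 * t * (algebraMap ℂ N P.P0 * algebraMap ℂ N P.P2) := by
    rw [mul_pow, hx, ha]
    field_simp
  linear_combination (tD P t * l) ^ 2 * e2

variable (P) in
/-- The data of the node over the algebraic closure of `ℂ(l)`. -/
theorem gd_of (hc : NC P) (hl : Transcendental ℂ l) (hn : IsNode P l al be)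
    (hd : 4 * qI (ntd P l al be).qc ^ 3 ≠ qJ (ntd P l al be).qc ^ 2) :
    ∃ d' : TD (cl0 ({l} : Set N)), GD (cl0 ({l} : Set N)) d' ∧ up d' = ntd P l al be := by
  have : CharZero N := charZero_of_injective_algebraMap (algebraMap ℂ N).injective
  obtain ⟨t, ht, ha, hb, hlt, hD, htt⟩ := node_t hc hl hn
  have mt : t ∈ cl0 ({l} : Set N) := by rw [htt]; exact idx_mem hc hl hn
  have ml : l ∈ cl0 ({l} : Set N) := subset_cl0 _ rfl
  have hbe : be = (1 - l) / (1 - t) := by
    have h1 : 1 - t ≠ 0 := by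
      intro h0
      apply ht
      have : t = algebraMap ℂ N 1 := by rw [map_one]; linear_combination -h0
      rw [this]
      exact isAlgebraic_algebraMap _
    rw [eq_div_iff h1, ← hn.sub, ha]
    ring
  have mb : be ∈ cl0 ({l} : Set N) := by
    rw [hbe]
    exact div_mem (sub_mem (one_mem _) ml) (sub_mem (one_mem _) mt)
  have ma : al ∈ cl0 ({l} : Set N) := by
    rw [ha]
    exact mul_mem mt mb
  let f : cl0 ({l} : Set N) →ₐ[ℂ] N := IntermediateField.val _
  have hf : Function.Injective f := Subtype.val_injective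
  have hup : up (ntd P (⟨l, ml⟩ : cl0 ({l} : Set N)) ⟨al, ma⟩ ⟨be, mb⟩) = ntd P l al be :=
    map_ntd f P (⟨l, ml⟩ : cl0 ({l} : Set N)) ⟨al, ma⟩ ⟨be, mb⟩
  have hne : ∀ z : ℂ, z ≠ 0 → algebraMap ℂ (cl0 ({l} : Set N)) z ≠ 0 := fun z hz =>
    (_root_.map_ne_zero _).2 hz
  have hal0 : (⟨al, ma⟩ : cl0 ({l} : Set N)) ≠ 0 := fun h => hn.al0 (congrArg Subtype.val h)
  have hbe0 : (⟨be, mb⟩ : cl0 ({l} : Set N)) ≠ 0 := fun h => hn.be0 (congrArg Subtype.val h)
  refine ⟨ntd P (⟨l, ml⟩ : cl0 ({l} : Set N)) ⟨al, ma⟩ ⟨be, mb⟩, ⟨cl0_closed _, rfl, ?_, hal0, hbe0,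
    ?_, ?_, ?_, ?_, ?_, ?_, ?_, ?_, ?_⟩, hup⟩
  · apply Subtype.ext
    change l + (be - al) = 1
    rw [hn.sub]
    ring
  · intro h
    have h1 : be - al = 0 := congrArg Subtype.val h
    rw [hn.sub] at h1
    apply hl
    have : l = algebraMap ℂ N 1 := by rw [map_one]; linear_combination -h1
    rw [this]
    exact isAlgebraic_algebraMap _
  · intro h
    have h1 : l = 0 := congrArg Subtype.val h
    apply hl
    rw [h1]
    exact isAlgebraic_zero
  · exact div_ne_zero (mul_ne_zero hbe0 (hne _ hc.P2)) hal0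
  · exact div_ne_zero (mul_ne_zero hal0 (hne _ hc.P0)) hbe0
  · intro h
    have h1 : l ^ 2 - (be - al) ^ 2 = 0 := congrArg Subtype.val h
    rw [hn.sub] at h1
    apply hl
    have : l = algebraMap ℂ N (1 / 2) := by
      rw [map_div₀, map_one, map_ofNat]
      field_simp
      linear_combination h1
    rw [this]
    exact isAlgebraic_algebraMap _
  · intro h
    have h1 : 4 * al * be + l ^ 2 = 0 := congrArg Subtype.val h
    exact q40 hc hl hn h1
  · intro h
    have h1 : al * (be * algebraMap ℂ N P.P2 / al) = be * (al * algebraMap ℂ N P.P0 / be) :=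
      congrArg Subtype.val h
    have hal := hn.al0
    have hbe' := hn.be0
    field_simp at h1
    apply ht
    have hP0 : algebraMap ℂ N P.P0 ≠ 0 := (_root_.map_ne_zero _).2 hc.P0
    have : t = algebraMap ℂ N (P.P2 / P.P0) := by
      rw [map_div₀, eq_div_iff hP0, htt]
      field_simp
      linear_combination -h1
    rw [this]
    exact isAlgebraic_algebraMap _
  · intro x hx hM
    have h1 := TD.map_q2 (ntd P (⟨l, ml⟩ : cl0 ({l} : Set N)) ⟨al, ma⟩ ⟨be, mb⟩)
      (algebraMap (cl0 ({l} : Set N)) N) x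
    have h2 := TD.map_M1 (ntd P (⟨l, ml⟩ : cl0 ({l} : Set N)) ⟨al, ma⟩ ⟨be, mb⟩)
      (algebraMap (cl0 ({l} : Set N)) N) x
    rw [hx, map_zero] at h1
    rw [hM, map_zero] at h2
    change 0 = (up _).q2 _ at h1
    change 0 = (up _).M1 _ at h2
    rw [hup] at h1 h2
    exact nczero hc hl hn h1.symm h2.symm
  · intro h
    apply hd
    have h1 : ∀ j, (ntd P l al be).qc j = algebraMap (cl0 ({l} : Set N)) N
        ((ntd P (⟨l, ml⟩ : cl0 ({l} : Set N)) ⟨al, ma⟩ ⟨be, mb⟩).qc j) := by
      intro j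
      rw [TD.map_qc, ← hup]
      rfl
    have h2 := congrArg (algebraMap (cl0 ({l} : Set N)) N) h
    rw [map_mul, map_pow, map_pow, map_ofNat] at h2
    have h3 : algebraMap (cl0 ({l} : Set N)) N (qI
        (ntd P (⟨l, ml⟩ : cl0 ({l} : Set N)) ⟨al, ma⟩ ⟨be, mb⟩).qc) = qI (ntd P l al be).qc := by
      unfold qI
      simp only [map_add, map_sub, map_mul, map_pow, map_ofNat, h1]
    have h4 : algebraMap (cl0 ({l} : Set N)) N (qJ
        (ntd P (⟨l, ml⟩ : cl0 ({l} : Set N)) ⟨al, ma⟩ ⟨be, mb⟩).qc) = qJ (ntd P l al be).qc := by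
      unfold qJ
      simp only [map_add, map_sub, map_mul, map_pow, map_ofNat, h1]
    rw [h3, h4] at h2
    exact h2

end inst

end Vale.Agent.P297.Z2
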