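import Vale.Agent.P297.H424.G4.Defs

/-!
The lines through a node of the double solid `T_l`, the curve of the lines that are everywhere
tangent to the branch quartic, and its plane model `v ^ 2 = q4 X`.

The letters: the node is `(al : -be : 1)`, the lines through it are
`(al y + p, -be y + r, y)`, `e = be - al = 1 - l`, `A = be P2 / al`, `C = al P0 / be`,
`pn = al u - C`, `rn = -be v - A`.
-/

set_option linter.unusedSectionVars false
set_option linter.unusedVariables false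

namespace Vale.Agent.P297.Z2

/-- The data of a node. -/
structure TD (R : Type) where
  al : R
  be : R
  l : R
  e : R
  A : R
  C : R
  pn : R
  rn : R
  kp : R
  kr : R
  w0 : R

namespace TD

section ring

variable {R : Type} [CommRing R] (d : TD R)

/-! ### The polynomials in the coordinates `(p, r)` of a line -/

/-- `A₂ = l² (π + ρ)² + 4 W` -/
def W (p r : R) : R := d.al * d.be * (p + r) ^ 2 + d.kp * p + d.kr * r + d.w0

/-- the conic through the six projected nodes -/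
def ka (p r : R) : R := d.W p r - d.l * d.e * (p - d.pn) * (r - d.rn)

/-- the projected twisted cubic -/
def M0 (p r : R) : R := (p - d.pn) * (r - d.rn) * (d.be * p + d.al * r) -
  d.be * d.A * (p - d.pn) ^ 2 - d.al * d.C * (r - d.rn) ^ 2

def g2 (p r : R) : R := (r - d.rn) * p - d.A * (p - d.pn)

def g3 (p r : R) : R := (p - d.pn) * r - d.C * (r - d.rn)

/-- the coefficient of `y ^ 2` of the branch quartic on the line -/
def B2 (p r : R) : R := d.l ^ 2 * ((p - d.pn) + (r - d.rn)) ^ 2 + 4 * d.W p r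

/-! ### The polynomials in `(X, S)`, `S = p + r - pn - rn` -/

/-- the value of `X` at the node of the projected twisted cubic -/
def c : R := d.be * d.pn + d.al * d.rn

def q2 (X : R) : R := X ^ 2 - 4 * d.al * d.be * d.A * d.C

def t0 (X : R) : R := X + d.be * d.A + d.al * d.C

def t1 (X : R) : R := X + d.al * d.A + d.be * d.C

def r1 (X : R) : R := (d.al + d.be) * X + 2 * d.al * d.be * (d.A + d.C)

def M1 (X : R) : R := d.kr - d.kp + d.l * d.t0 X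

/-- the coefficients of `D₀ = e² Q_X(a, b)` -/
def d2 (X : R) : R := -(d.al * d.be * d.t1 X)

def d1 (X : R) : R := d.r1 X * (X - d.c)

def d0 (X : R) : R := -(d.t0 X * (X - d.c) ^ 2)

/-- the coefficients of `Y_n` -/
def y2 : R := -(d.e * d.al * d.be)

def y1 (X : R) : R := -(d.l * d.r1 X) - 2 * d.e * d.al * d.be * (d.pn + d.rn) + d.al * d.kp -
  d.be * d.kr

def y0 (X : R) : R := d.e * d.q2 X + 2 * d.l * (X - d.c) * d.t0 X -
  d.e * d.al * d.be * (d.pn + d.rn) ^ 2 - d.kp * (d.e * d.pn + (X - d.c)) -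
  d.kr * (d.e * d.rn - (X - d.c)) - d.e * d.w0

/-- the quadratic equation of the curve in `S` -/
def T2 (X : R) : R := d.e * d.q2 X * d.y2 - d.l * d.M1 X * d.d2 X

def T1 (X : R) : R := d.e * d.q2 X * d.y1 X - d.l * d.M1 X * d.d1 X

def T0 (X : R) : R := d.e * d.q2 X * d.y0 X - d.l * d.M1 X * d.d0 X

/-- `e L` -/
def Le (X S : R) : R := 2 * (X - d.c) * d.t0 X - S * d.r1 X

/-! ### The coefficients of the quartic -/

def Q20 : R := -(4 * d.al * d.be * d.A * d.C)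

def h0 : R := d.be * d.A + d.al * d.C

def h1 : R := d.al * d.A + d.be * d.C

def Y11 : R := -(d.l * (d.al + d.be))

def Y10 : R := -(2 * d.l * d.al * d.be * (d.A + d.C)) - 2 * d.e * d.al * d.be * (d.pn + d.rn) +
  d.al * d.kp - d.be * d.kr

def Y02 : R := d.e + 2 * d.l

def Y01 : R := 2 * d.l * (d.h0 - d.c) + d.kr - d.kp

def Y00 : R := d.e * d.Q20 - 2 * d.l * d.c * d.h0 - d.e * d.al * d.be * (d.pn + d.rn) ^ 2 -
  d.kp * (d.e * d.pn - d.c) - d.kr * (d.e * d.rn + d.c) - d.e * d.w0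

def mu0 : R := d.l * d.h0 + d.kr - d.kp

def ze0 : R := d.Q20 - d.al * d.be * (d.pn + d.rn) ^ 2 - d.kp * d.pn - d.kr * d.rn - d.w0

def K12 : R := -(d.l * d.e)

def K11 : R := -(2 * d.al * d.be * (d.pn + d.rn) * (d.al + d.be)) - d.al * d.kp - d.be * d.kr

def K10 : R := -(d.l * d.e * d.Q20) - 4 * (d.al * d.be) ^ 2 * (d.pn + d.rn) * (d.A + d.C) -
  2 * d.al * d.be * (d.C * d.kp + d.A * d.kr)

def G3 : R := -(d.l * d.e)

def G2 : R := d.K11 - d.c * d.K12 + 2 * d.al * d.be * d.h1 - 2 * d.al * d.be * (d.h0 - 2 * d.c)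

def G1 : R := d.K10 - d.c * d.K11 + 2 * d.al * d.be * d.ze0 -
  2 * d.al * d.be * (d.c ^ 2 - 2 * d.c * d.h0)

def G0 : R := -(d.c * d.K10) + 2 * d.al * d.be * d.h1 * d.ze0 - 2 * d.al * d.be * d.h0 * d.c ^ 2

def D2 : R := d.Y11 ^ 2 + 4 * d.e * d.al * d.be * d.Y02

def D1 : R := 2 * d.Y11 * d.Y10 + 4 * d.e * d.al * d.be * d.Y01

def D0 : R := d.Y10 ^ 2 + 4 * d.e * d.al * d.be * d.Y00

/-- **The coefficients of the quartic `q4`** (of `1, X, …, X ^ 4`). -/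
def qc : Fin 5 → R :=
  ![d.Q20 * d.D0 - 2 * d.l * (d.mu0 * d.G0) + d.l ^ 2 * (d.mu0 * d.c) ^ 2,
    d.Q20 * d.D1 - 2 * d.l * (d.l * d.G0 + d.mu0 * d.G1) -
      2 * d.l ^ 2 * ((d.mu0 - d.l * d.c) * (d.mu0 * d.c)),
    d.D0 + d.Q20 * d.D2 - 2 * d.l * (d.l * d.G1 + d.mu0 * d.G2) +
      d.l ^ 2 * ((d.mu0 - d.l * d.c) ^ 2 - 2 * d.l * (d.mu0 * d.c)),
    d.D1 - 2 * d.l * (d.l * d.G2 + d.mu0 * d.G3) + 2 * d.l ^ 3 * (d.mu0 - d.l * d.c),
    d.D2 - 2 * d.l ^ 2 * d.G3 + d.l ^ 4]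

/-- The quartic. -/
def q4 (X : R) : R := G4.qv d.qc X

theorem q4_eq (X : R) : d.q4 X = d.q2 X * (d.y1 X ^ 2 - 4 * d.y2 * d.y0 X) -
    2 * d.l * d.M1 X * (d.G0 + d.G1 * X + d.G2 * X ^ 2 + d.G3 * X ^ 3) +
    d.l ^ 2 * d.M1 X ^ 2 * (X - d.c) ^ 2 := by
  have e1 : d.q2 X = X ^ 2 + d.Q20 := by unfold q2 Q20; ring
  have e2 : d.y1 X = d.Y11 * X + d.Y10 := by unfold y1 Y11 Y10 r1; ring
  have e3 : d.y0 X = d.Y02 * X ^ 2 + d.Y01 * X + d.Y00 := by
    unfold y0 Y02 Y01 Y00 q2 Q20 t0 h0; ring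
  have e4 : d.M1 X = d.l * X + d.mu0 := by unfold M1 mu0 t0 h0; ring
  rw [e1, e2, e3, e4]
  change (d.Q20 * d.D0 - 2 * d.l * (d.mu0 * d.G0) + d.l ^ 2 * (d.mu0 * d.c) ^ 2) +
    (d.Q20 * d.D1 - 2 * d.l * (d.l * d.G0 + d.mu0 * d.G1) -
      2 * d.l ^ 2 * ((d.mu0 - d.l * d.c) * (d.mu0 * d.c))) * X +
    (d.D0 + d.Q20 * d.D2 - 2 * d.l * (d.l * d.G1 + d.mu0 * d.G2) +
      d.l ^ 2 * ((d.mu0 - d.l * d.c) ^ 2 - 2 * d.l * (d.mu0 * d.c))) * X ^ 2 +
    (d.D1 - 2 * d.l * (d.l * d.G2 + d.mu0 * d.G3) + 2 * d.l ^ 3 * (d.mu0 - d.l * d.c)) * X ^ 3 +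
    (d.D2 - 2 * d.l ^ 2 * d.G3 + d.l ^ 4) * X ^ 4 = _
  unfold D0 D1 D2 y2
  ring

/-- The mixed discriminant is divisible by `e`. -/
theorem mixed (he : d.e = d.be - d.al) (X : R) :
    d.y1 X * d.d1 X - 2 * d.y0 X * d.d2 X - 2 * d.y2 * d.d0 X =
      d.e * (d.G0 + d.G1 * X + d.G2 * X ^ 2 + d.G3 * X ^ 3) := by
  unfold y1 d1 y0 d2 y2 d0 G0 G1 G2 G3 K10 K11 K12 ze0 r1 t0 t1 q2 Q20 h0 h1
  generalize d.c = c
  rw [he]
  ring

/-- The discriminant of `D₀`. -/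
theorem disc_d (he : d.e = d.be - d.al) (X : R) :
    d.d1 X ^ 2 - 4 * d.d0 X * d.d2 X = (X - d.c) ^ 2 * d.e ^ 2 * d.q2 X := by
  unfold d1 d0 d2 r1 t0 t1 q2
  rw [he]
  ring

/-- **The discriminant of the quadratic equation.** -/
theorem disc_T (he : d.e = d.be - d.al) (X : R) :
    d.T1 X ^ 2 - 4 * d.T2 X * d.T0 X = d.e ^ 2 * d.q2 X * d.q4 X := by
  have h1 := d.mixed he X
  have h2 := d.disc_d he X
  rw [q4_eq]
  unfold T1 T2 T0
  linear_combination (-(2 * d.e * d.q2 X * d.l * d.M1 X)) * h1 + (d.l * d.M1 X) ^ 2 * h2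

end ring

end TD

end Vale.Agent.P297.Z2
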