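import Vale.Agent.P297.H940.Z2.Tan

/-!
The birational dictionary between the curve of tangent lines and its plane model.
-/

set_option linter.unusedSectionVars false
set_option linter.unusedVariables false

namespace Vale.Agent.P297.Z2

namespace TD

section ring

variable {R : Type} [CommRing R] (d : TD R)

/-- `al be j₀` -/
def jn (p r : R) : R := d.l * d.be * d.g2 p r - d.l * d.al * d.g3 p r + d.ka p r

/-- `al be A₃` -/
def b1 (p r : R) : R := 2 * d.l * ((p - d.pn) + (r - d.rn)) * d.jn p r -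
  4 * (d.ka p r * (d.al * r - d.be * p) + d.l * d.e * (d.al * (r - d.rn) * d.g3 p r -
    d.be * (p - d.pn) * d.g2 p r))

/-- `(al be) ^ 2 A₄` -/
def b0 (p r : R) : R := d.jn p r ^ 2 -
  4 * d.al * d.be * (d.ka p r * (p * r - d.A * d.C) + d.l * d.e * (d.g2 p r * d.g3 p r))

/-- the linear form -/
def Lf (X a b : R) : R := (X + 2 * d.be * d.A) * a - (X + 2 * d.al * d.C) * b

/-- the binary quadratic form `Q_X` -/
def QX (X a b : R) : R := X * a * b - d.be * d.A * a ^ 2 - d.al * d.C * b ^ 2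

theorem id_aux (al be l e A C p r π ρ κ : R) :
    (2 * l * (π + ρ) * (l * be * (ρ * p - A * π) - l * al * (π * r - C * ρ) + κ) -
        4 * (κ * (al * r - be * p) + l * e * (al * ρ * (π * r - C * ρ) -
          be * π * (ρ * p - A * π)))) ^ 2 -
      4 * (l ^ 2 * (π + ρ) ^ 2 + 4 * (κ + l * e * π * ρ)) *
        ((l * be * (ρ * p - A * π) - l * al * (π * r - C * ρ) + κ) ^ 2 -
          4 * al * be * (κ * (p * r - A * C) + l * e * ((ρ * p - A * π) * (π * r - C * ρ)))) =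
    16 * (κ ^ 2 * ((be * p + al * r) ^ 2 - 4 * al * be * A * C +
        l * ((be * p + al * r) * (π - ρ) + 2 * be * A * π - 2 * al * C * ρ) -
          (κ + l * e * π * ρ)) +
      κ * (π * ρ * (be * p + al * r) - be * A * π ^ 2 - al * C * ρ ^ 2) *
        (2 * l * e * (be * p + al * r) + l ^ 2 * e * (π - ρ) +
          l ^ 2 * (be * p + al * r + be * A + al * C)) +
      (π * ρ * (be * p + al * r) - be * A * π ^ 2 - al * C * ρ ^ 2) ^ 2 *
        (l ^ 2 * e * (e + l))) := by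
  ring

/-- **The discriminant of the branch quartic on the lines.** -/
theorem disc_line {p r G : R} (hG : d.ka p r * G = d.M0 p r) :
    d.b1 p r ^ 2 - 4 * d.B2 p r * d.b0 p r = 16 * d.ka p r ^ 2 *
      (d.q2 (d.be * p + d.al * r + d.l * d.e * G) +
        d.l * d.Lf (d.be * p + d.al * r + d.l * d.e * G) (p - d.pn + d.l * G)
          (r - d.rn - d.l * G) -
        d.l ^ 2 * G * d.t0 (d.be * p + d.al * r + d.l * d.e * G) - d.W p r) := by
  have h := id_aux d.al d.be d.l d.e d.A d.C p r (p - d.pn) (r - d.rn) (d.ka p r)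
  have hW : d.W p r = d.ka p r + d.l * d.e * (p - d.pn) * (r - d.rn) := by
    unfold ka
    ring
  have hM : d.M0 p r = (p - d.pn) * (r - d.rn) * (d.be * p + d.al * r) -
      d.be * d.A * (p - d.pn) ^ 2 - d.al * d.C * (r - d.rn) ^ 2 := rfl
  rw [← hM] at h
  unfold b1 B2 b0 jn g2 g3
  rw [hW, h]
  unfold q2 Lf t0
  generalize d.ka p r = κ at hG ⊢
  generalize p - d.pn = π
  generalize r - d.rn = ρ
  generalize d.M0 p r = M at hG ⊢
  linear_combination (-16) * (κ * (2 * d.l * d.e * (d.be * p + d.al * r) +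
    d.l ^ 2 * d.e * (π - ρ) + d.l ^ 2 * (d.be * p + d.al * r + d.be * d.A + d.al * d.C)) +
    (κ * G + M) * (d.l ^ 2 * d.e * (d.e + d.l))) * hG

/-- the value of the form at the line -/
theorem QX_line (X a b l G : R) : d.QX X (a - l * G) (b + l * G) =
    d.QX X a b + l * G * d.Lf X a b - l ^ 2 * G ^ 2 * d.t0 X := by
  unfold QX Lf t0
  ring

theorem M0_eq (p r X : R) : d.M0 p r = d.QX X (p - d.pn) (r - d.rn) -
    (p - d.pn) * (r - d.rn) * (X - d.be * p - d.al * r) := by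
  unfold M0 QX
  ring

theorem sq_Lf (X a b : R) : (a + b) ^ 2 * d.q2 X - 4 * d.QX X a b * d.t0 X = d.Lf X a b ^ 2 := by
  unfold q2 QX t0 Lf
  ring

end ring

section field

variable {k : Type} [Field k] (d : TD k)

/-- The coordinates `(p, r)` of a tangent line, the value of `X`, and auxiliary coordinates. -/
structure Pt (p r X S a b G : k) : Prop where
  hS : a + b = S
  hX : d.be * a + d.al * b + d.c = X
  hp : p = d.pn + a - d.l * G
  hr : r = d.rn + b + d.l * G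
  hQ : d.QX X a b = G * d.q2 X
  hW : d.W p r = d.q2 X + d.l * d.Lf X a b - d.l ^ 2 * G * d.t0 X

variable {d} {p r X S a b G : k}

theorem Pt.X_eq (h : d.Pt p r X S a b G) (he : d.e = d.be - d.al) :
    d.be * p + d.al * r + d.l * d.e * G = X := by
  rw [← h.hX, h.hp, h.hr, he]
  unfold c
  ring

theorem Pt.S_eq (h : d.Pt p r X S a b G) : (p - d.pn) + (r - d.rn) = S := by
  rw [← h.hS, h.hp, h.hr]
  ring

/-- `Γ = M₀ / κ` -/
theorem Pt.ka_mul (h : d.Pt p r X S a b G) (he : d.e = d.be - d.al) :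
    d.ka p r * G = d.M0 p r := by
  have h1 := h.X_eq he
  have h2 := d.M0_eq p r X
  have h3 := d.QX_line X a b d.l G
  have h4 : p - d.pn = a - d.l * G := by rw [h.hp]; ring
  have h5 : r - d.rn = b + d.l * G := by rw [h.hr]; ring
  have h6 := h.hQ
  have h7 := h.hW
  have h8 : d.ka p r = d.W p r - d.l * d.e * (p - d.pn) * (r - d.rn) := rfl
  have h9 : X - d.be * p - d.al * r = d.l * d.e * G := by rw [← h1]; ring
  rw [h9, h4, h5, h3] at h2
  rw [h2, h8, h4, h5, h7, h6]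
  ring

/-- The line is tangent everywhere. -/
theorem Pt.disc (h : d.Pt p r X S a b G) (he : d.e = d.be - d.al) :
    d.b1 p r ^ 2 = 4 * d.B2 p r * d.b0 p r := by
  have h1 := d.disc_line (h.ka_mul he)
  rw [h.X_eq he, h.hW] at h1
  have h4 : p - d.pn + d.l * G = a := by rw [h.hp]; ring
  have h5 : r - d.rn - d.l * G = b := by rw [h.hr]; ring
  rw [h4, h5] at h1
  linear_combination h1

/-- `q2 A₂` is a square. -/
theorem Pt.sq (h : d.Pt p r X S a b G) :
    d.q2 X * d.B2 p r = (2 * d.q2 X + d.l * d.Lf X a b) ^ 2 := by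
  have h1 := h.S_eq
  have h2 := d.sq_Lf X a b
  have h3 := h.hQ
  have h4 := h.hW
  have h5 := h.hS
  unfold B2
  rw [h1, h4, ← h5]
  linear_combination d.l ^ 2 * h2 + 4 * d.l ^ 2 * d.t0 X * h3

theorem Le_eq (he : d.e = d.be - d.al) : d.e * d.Lf (d.be * a + d.al * b + d.c) a b =
    d.Le (d.be * a + d.al * b + d.c) (a + b) := by
  unfold Lf Le t0 r1
  rw [he]
  ring

theorem D_eq (he : d.e = d.be - d.al) : d.e ^ 2 * d.QX (d.be * a + d.al * b + d.c) a b =
    d.d2 (d.be * a + d.al * b + d.c) * (a + b) ^ 2 +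
      d.d1 (d.be * a + d.al * b + d.c) * (a + b) + d.d0 (d.be * a + d.al * b + d.c) := by
  unfold QX d2 d1 d0 t0 t1 r1
  rw [he]
  ring

theorem Yn_eq (he : d.e = d.be - d.al) (G : k) :
    d.y2 * (a + b) ^ 2 + d.y1 (d.be * a + d.al * b + d.c) * (a + b) +
      d.y0 (d.be * a + d.al * b + d.c) =
    d.e * (d.q2 (d.be * a + d.al * b + d.c) + d.l * d.Lf (d.be * a + d.al * b + d.c) a b -
      d.l ^ 2 * G * d.t0 (d.be * a + d.al * b + d.c) -
      d.W (d.pn + a - d.l * G) (d.rn + b + d.l * G) +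
      d.l * G * d.M1 (d.be * a + d.al * b + d.c)) := by
  unfold y2 y1 y0 Lf W M1 t0 r1
  rw [he]
  ring

/-- The quadratic equation. -/
theorem Pt.T_eq (h : d.Pt p r X S a b G) (he : d.e = d.be - d.al) :
    d.T2 X * S ^ 2 + d.T1 X * S + d.T0 X = 0 := by
  have h1 := D_eq (d := d) (a := a) (b := b) he
  have h2 := Yn_eq (d := d) (a := a) (b := b) he G
  have h3 := h.hQ
  have h4 := h.hW
  rw [h.hp, h.hr] at h4
  rw [h.hX, h.hS] at h1 h2
  unfold T2 T1 T0
  linear_combination (-(d.l * d.M1 X)) * (-h1) + d.e * d.q2 X * h2 -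
    d.l * d.M1 X * d.e ^ 2 * h3 + d.e ^ 2 * d.q2 X * (-h4)

/-- The point of a tangent line. -/
theorem Pt.of_line [CharZero k] (he : d.e = d.be - d.al) (hk : d.ka p r ≠ 0)
    (hd : d.b1 p r ^ 2 = 4 * d.B2 p r * d.b0 p r) :
    d.Pt p r (d.be * p + d.al * r + d.l * d.e * (d.M0 p r / d.ka p r))
      ((p - d.pn) + (r - d.rn)) (p - d.pn + d.l * (d.M0 p r / d.ka p r))
      (r - d.rn - d.l * (d.M0 p r / d.ka p r)) (d.M0 p r / d.ka p r) := by
  set G := d.M0 p r / d.ka p r with hG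
  have hG' : d.ka p r * G = d.M0 p r := by rw [hG]; field_simp
  have h1 := d.disc_line hG'
  set X := d.be * p + d.al * r + d.l * d.e * G with hX
  have h2 : d.W p r = d.q2 X + d.l * d.Lf X (p - d.pn + d.l * G) (r - d.rn - d.l * G) -
      d.l ^ 2 * G * d.t0 X := by
    have h3 : (16 : k) * d.ka p r ^ 2 ≠ 0 := mul_ne_zero (by norm_num) (pow_ne_zero 2 hk)
    apply mul_left_cancel₀ h3
    linear_combination h1 - hd
  refine ⟨by ring, ?_, by ring, by ring, ?_, h2⟩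
  · rw [hX, he]
    unfold c
    ring
  · have h3 := d.QX_line X (p - d.pn + d.l * G) (r - d.rn - d.l * G) d.l G
    have h4 : p - d.pn + d.l * G - d.l * G = p - d.pn := by ring
    have h5 : r - d.rn - d.l * G + d.l * G = r - d.rn := by ring
    rw [h4, h5] at h3
    have h6 := d.M0_eq p r X
    have h7 : d.ka p r = d.W p r - d.l * d.e * (p - d.pn) * (r - d.rn) := rfl
    rw [← hG', h7] at h6
    have h9 : X - d.be * p - d.al * r = d.l * d.e * G := by rw [hX]; ring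
    rw [h9] at h6
    linear_combination (-1) * h3 - h6 + G * h2

/-- The point of a solution `(X, S)` of the quadratic equation. -/
theorem Pt.of_XS (he : d.e = d.be - d.al) (he0 : d.e ≠ 0) (hq : d.q2 X ≠ 0)
    (hT : d.T2 X * S ^ 2 + d.T1 X * S + d.T0 X = 0) {a b G : k}
    (ha : a = ((X - d.c) - d.al * S) / d.e) (hb : b = (d.be * S - (X - d.c)) / d.e)
    (hG : G = (d.d2 X * S ^ 2 + d.d1 X * S + d.d0 X) / (d.e ^ 2 * d.q2 X)) :
    d.Pt (d.pn + a - d.l * G) (d.rn + b + d.l * G) X S a b G := by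
  have ha' : d.e * a = (X - d.c) - d.al * S := by rw [ha]; field_simp
  have hb' : d.e * b = d.be * S - (X - d.c) := by rw [hb]; field_simp
  have hS : a + b = S := by
    apply mul_left_cancel₀ he0
    rw [mul_add, ha', hb', he]
    ring
  have hX : d.be * a + d.al * b + d.c = X := by
    apply mul_left_cancel₀ he0
    rw [show d.e * (d.be * a + d.al * b + d.c) = d.be * (d.e * a) + d.al * (d.e * b) +
      d.e * d.c by ring, ha', hb', he]
    ring
  have h1 := D_eq (d := d) (a := a) (b := b) he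
  have h2 := Yn_eq (d := d) (a := a) (b := b) he G
  rw [hX, hS] at h1 h2
  have hG' : d.e ^ 2 * d.q2 X * G = d.d2 X * S ^ 2 + d.d1 X * S + d.d0 X := by
    rw [hG]
    field_simp
  have hQ : d.QX X a b = G * d.q2 X := by
    apply mul_left_cancel₀ (pow_ne_zero 2 he0)
    rw [h1, ← hG']
    ring
  refine ⟨hS, hX, rfl, rfl, hQ, ?_⟩
  apply mul_left_cancel₀ (mul_ne_zero (pow_ne_zero 2 he0) hq)
  unfold T2 T1 T0 at hT
  linear_combination (-1) * hT + d.e * d.q2 X * h2 + d.l * d.M1 X * hG'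

/-! ### The two maps -/

variable (d)

/-- `Γ` -/
def Gf (p r : k) : k := d.M0 p r / d.ka p r

/-- The function `X` on the lines. -/
def Xf (p r : k) : k := d.be * p + d.al * r + d.l * d.e * d.Gf p r

/-- `S = p + r - pn - rn` -/
def Sf (p r : k) : k := (p - d.pn) + (r - d.rn)

/-- `H / s`, a square root of `q2 X` -/
def wf (p r s : k) : k :=
  (2 * d.e * d.q2 (d.Xf p r) + d.l * d.Le (d.Xf p r) (d.Sf p r)) / (d.e * s)

/-- a square root of `q4 X` -/
def vf (p r s : k) : k :=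
  (2 * d.T2 (d.Xf p r) * d.Sf p r + d.T1 (d.Xf p r)) / (d.e * d.wf p r s)

/-- `S` as a function of `(X, w, v)` -/
def Sb (X w v : k) : k := (d.e * w * v - d.T1 X) / (2 * d.T2 X)

def ab (X w v : k) : k := ((X - d.c) - d.al * d.Sb X w v) / d.e

def bb (X w v : k) : k := (d.be * d.Sb X w v - (X - d.c)) / d.e

def Gb (X w v : k) : k :=
  (d.d2 X * d.Sb X w v ^ 2 + d.d1 X * d.Sb X w v + d.d0 X) / (d.e ^ 2 * d.q2 X)

/-- the coordinate `p` of the line -/
def pb (X w v : k) : k := d.pn + d.ab X w v - d.l * d.Gb X w v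

/-- the coordinate `r` of the line -/
def rb (X w v : k) : k := d.rn + d.bb X w v + d.l * d.Gb X w v

/-- the square root of `A₂` -/
def sb (X w v : k) : k := (2 * d.e * d.q2 X + d.l * d.Le X (d.Sb X w v)) / (d.e * w)

variable {d} {w v s : k}

theorem Sb_T [CharZero k] (he : d.e = d.be - d.al) (hT : d.T2 X ≠ 0) (hw : w ^ 2 = d.q2 X)
    (hv : v ^ 2 = d.q4 X) :
    d.T2 X * d.Sb X w v ^ 2 + d.T1 X * d.Sb X w v + d.T0 X = 0 := by
  have h1 := d.disc_T he X
  have h2 : 2 * d.T2 X * d.Sb X w v = d.e * w * v - d.T1 X := by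
    unfold Sb
    field_simp
  have h3 : (4 : k) * d.T2 X ≠ 0 := mul_ne_zero (by norm_num) hT
  apply mul_left_cancel₀ h3
  rw [mul_zero]
  linear_combination (2 * d.T2 X * d.Sb X w v + d.T1 X + d.e * w * v) * h2 - h1 +
    d.e ^ 2 * v ^ 2 * hw + d.e ^ 2 * d.q2 X * hv

/-- **From the plane model to the lines.** -/
theorem pt_b [CharZero k] (he : d.e = d.be - d.al) (he0 : d.e ≠ 0) (hT : d.T2 X ≠ 0)
    (hw0 : w ≠ 0) (hw : w ^ 2 = d.q2 X) (hv : v ^ 2 = d.q4 X) :
    d.Pt (d.pb X w v) (d.rb X w v) X (d.Sb X w v) (d.ab X w v) (d.bb X w v) (d.Gb X w v) :=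
  Pt.of_XS he he0 (by rw [← hw]; exact pow_ne_zero 2 hw0) (Sb_T he hT hw hv) rfl rfl rfl

theorem Lf_e (he : d.e = d.be - d.al) (h : d.Pt p r X S a b G) :
    d.e * d.Lf X a b = d.Le X S := by
  have h1 := Le_eq (d := d) (a := a) (b := b) he
  rwa [h.hX, h.hS] at h1

theorem sb_sq [CharZero k] (he : d.e = d.be - d.al) (he0 : d.e ≠ 0) (hT : d.T2 X ≠ 0)
    (hw0 : w ≠ 0) (hw : w ^ 2 = d.q2 X) (hv : v ^ 2 = d.q4 X) :
    d.sb X w v ^ 2 = d.B2 (d.pb X w v) (d.rb X w v) := by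
  have h := pt_b he he0 hT hw0 hw hv
  have h1 := h.sq
  have h2 := Lf_e he h
  have h3 : d.sb X w v = (2 * d.q2 X + d.l * d.Lf X (d.ab X w v) (d.bb X w v)) / w := by
    unfold sb
    rw [← h2]
    field_simp
  rw [h3, div_pow, ← h1, hw]
  have hq : d.q2 X ≠ 0 := by rw [← hw]; exact pow_ne_zero 2 hw0
  field_simp

theorem disc_b [CharZero k] (he : d.e = d.be - d.al) (he0 : d.e ≠ 0) (hT : d.T2 X ≠ 0)
    (hw0 : w ≠ 0) (hw : w ^ 2 = d.q2 X) (hv : v ^ 2 = d.q4 X) :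
    d.b1 (d.pb X w v) (d.rb X w v) ^ 2 =
      4 * d.B2 (d.pb X w v) (d.rb X w v) * d.b0 (d.pb X w v) (d.rb X w v) :=
  (pt_b he he0 hT hw0 hw hv).disc he

/-- the involution -/
theorem Sb_neg (X w v : k) : d.Sb X (-w) (-v) = d.Sb X w v := by
  unfold Sb
  rw [show d.e * -w * -v = d.e * w * v by ring]

theorem pb_neg (X w v : k) : d.pb X (-w) (-v) = d.pb X w v := by
  unfold pb ab Gb
  rw [Sb_neg]

theorem rb_neg (X w v : k) : d.rb X (-w) (-v) = d.rb X w v := by
  unfold rb bb Gb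
  rw [Sb_neg]

theorem sb_neg (X w v : k) : d.sb X (-w) (-v) = -d.sb X w v := by
  unfold sb
  rw [Sb_neg, mul_neg, div_neg]

/-! ### From the lines to the plane model -/

theorem pt_f [CharZero k] (he : d.e = d.be - d.al) (hk : d.ka p r ≠ 0)
    (hd : d.b1 p r ^ 2 = 4 * d.B2 p r * d.b0 p r) :
    d.Pt p r (d.Xf p r) (d.Sf p r) (p - d.pn + d.l * d.Gf p r) (r - d.rn - d.l * d.Gf p r)
      (d.Gf p r) := Pt.of_line he hk hd

theorem wf_sq [CharZero k] (he : d.e = d.be - d.al) (he0 : d.e ≠ 0) (hk : d.ka p r ≠ 0)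
    (hd : d.b1 p r ^ 2 = 4 * d.B2 p r * d.b0 p r) (hs : s ^ 2 = d.B2 p r) (hs0 : s ≠ 0) :
    d.wf p r s ^ 2 = d.q2 (d.Xf p r) := by
  have h := pt_f he hk hd
  have h1 := h.sq
  have h2 := Lf_e he h
  have h3 : d.wf p r s = (2 * d.q2 (d.Xf p r) + d.l * d.Lf (d.Xf p r)
      (p - d.pn + d.l * d.Gf p r) (r - d.rn - d.l * d.Gf p r)) / s := by
    unfold wf
    rw [← h2]
    field_simp
  rw [h3, div_pow, ← h1, hs]
  have hB : d.B2 p r ≠ 0 := by rw [← hs]; exact pow_ne_zero 2 hs0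
  field_simp

theorem vf_sq [CharZero k] (he : d.e = d.be - d.al) (he0 : d.e ≠ 0) (hk : d.ka p r ≠ 0)
    (hd : d.b1 p r ^ 2 = 4 * d.B2 p r * d.b0 p r) (hs : s ^ 2 = d.B2 p r) (hs0 : s ≠ 0)
    (hq : d.q2 (d.Xf p r) ≠ 0) : d.vf p r s ^ 2 = d.q4 (d.Xf p r) := by
  have h := pt_f he hk hd
  have h1 := h.T_eq he
  have h2 := d.disc_T he (d.Xf p r)
  have h3 := wf_sq he he0 hk hd hs hs0
  unfold vf
  rw [div_pow, mul_pow, h3, div_eq_iff (mul_ne_zero (pow_ne_zero 2 he0) hq)]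
  linear_combination h2 + 4 * d.T2 (d.Xf p r) * h1

theorem wf_ne [CharZero k] (he : d.e = d.be - d.al) (he0 : d.e ≠ 0) (hk : d.ka p r ≠ 0)
    (hd : d.b1 p r ^ 2 = 4 * d.B2 p r * d.b0 p r) (hs : s ^ 2 = d.B2 p r) (hs0 : s ≠ 0)
    (hq : d.q2 (d.Xf p r) ≠ 0) : d.wf p r s ≠ 0 := by
  intro h
  apply hq
  rw [← wf_sq he he0 hk hd hs hs0, h]
  ring

theorem Sb_f [CharZero k] (he : d.e = d.be - d.al) (he0 : d.e ≠ 0) (hk : d.ka p r ≠ 0)
    (hd : d.b1 p r ^ 2 = 4 * d.B2 p r * d.b0 p r) (hs : s ^ 2 = d.B2 p r) (hs0 : s ≠ 0)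
    (hq : d.q2 (d.Xf p r) ≠ 0) (hT : d.T2 (d.Xf p r) ≠ 0) :
    d.Sb (d.Xf p r) (d.wf p r s) (d.vf p r s) = d.Sf p r := by
  have hw := wf_ne he he0 hk hd hs hs0 hq
  have h1 : d.e * d.wf p r s * d.vf p r s =
      2 * d.T2 (d.Xf p r) * d.Sf p r + d.T1 (d.Xf p r) := by
    unfold vf
    field_simp
  unfold Sb
  rw [h1]
  field_simp
  ring

/-- **The composite is the identity.** -/
theorem bf [CharZero k] (he : d.e = d.be - d.al) (he0 : d.e ≠ 0) (hk : d.ka p r ≠ 0)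
    (hd : d.b1 p r ^ 2 = 4 * d.B2 p r * d.b0 p r) (hs : s ^ 2 = d.B2 p r) (hs0 : s ≠ 0)
    (hq : d.q2 (d.Xf p r) ≠ 0) (hT : d.T2 (d.Xf p r) ≠ 0) :
    d.pb (d.Xf p r) (d.wf p r s) (d.vf p r s) = p ∧
      d.rb (d.Xf p r) (d.wf p r s) (d.vf p r s) = r ∧
      d.sb (d.Xf p r) (d.wf p r s) (d.vf p r s) = s := by
  have hw := wf_ne he he0 hk hd hs hs0 hq
  have hw2 := wf_sq he he0 hk hd hs hs0
  have hv2 := vf_sq he he0 hk hd hs hs0 hq
  have hS := Sb_f he he0 hk hd hs hs0 hq hT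
  have h1 := pt_f he hk hd
  have h2 := pt_b he he0 hT hw hw2 hv2
  have e1 : d.e * (p - d.pn + d.l * d.Gf p r) = (d.Xf p r - d.c) - d.al * d.Sf p r := by
    have a1 := h1.hX
    have a2 := h1.hS
    rw [he]
    linear_combination a1 - d.al * a2
  have e2 : d.e * (r - d.rn - d.l * d.Gf p r) = d.be * d.Sf p r - (d.Xf p r - d.c) := by
    have a1 := h1.hX
    have a2 := h1.hS
    rw [he]
    linear_combination d.be * a2 - a1
  have ha : d.ab (d.Xf p r) (d.wf p r s) (d.vf p r s) = p - d.pn + d.l * d.Gf p r := by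
    unfold ab
    rw [hS, ← e1]
    field_simp
  have hb : d.bb (d.Xf p r) (d.wf p r s) (d.vf p r s) = r - d.rn - d.l * d.Gf p r := by
    unfold bb
    rw [hS, ← e2]
    field_simp
  have hG : d.Gb (d.Xf p r) (d.wf p r s) (d.vf p r s) = d.Gf p r := by
    have a1 := h1.hQ
    have a2 := h2.hQ
    rw [ha, hb, a1] at a2
    exact (mul_right_cancel₀ hq a2).symm
  refine ⟨?_, ?_, ?_⟩
  · unfold pb
    rw [ha, hG]
    ring
  · unfold rb
    rw [hb, hG]
    ring
  · have hH : 2 * d.e * d.q2 (d.Xf p r) + d.l * d.Le (d.Xf p r) (d.Sf p r) =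
        d.e * s * d.wf p r s := by
      unfold wf
      field_simp
    unfold sb
    rw [hS, hH]
    field_simp

end field

end TD

end Vale.Agent.P297.Z2
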