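import Vale.Agent.P297.H940.Z2.GenInst
import Vale.Agent.P297.H10.Z2.TriInst

/-!
The general line through a node and the plane model.
-/

set_option linter.unusedSectionVars false
set_option linter.unusedVariables false

open Polynomial

namespace Vale.Agent.P297.Z2

open Vale.Agent.P297 Vale.Agent.P297.Gen
open Vale.Agent.P297.H160.Z2Irr Vale.Agent.P297.G4

section gd

variable {N : Type} [Field N] [Algebra ℂ N] [CharZero N] {F : IntermediateField ℂ N} {d' : TD F}

/-- The quartic does not vanish at a general point. -/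
theorem GD.nq4 (h : GD F d') {x : N} (hx : x ∉ F) : (up d').q4 x ≠ 0 := by
  intro h0
  have hq : ∀ j, algebraMap F N (d'.qc j) = (up d').qc j := fun j =>
    TD.map_qc d' (algebraMap F N) j
  have hf : aeval x (C (d'.qc 0) + C (d'.qc 1) * X + C (d'.qc 2) * X ^ 2 +
      C (d'.qc 3) * X ^ 3 + C (d'.qc 4) * X ^ 4 : F[X]) = 0 := by
    simp only [map_add, map_mul, map_pow, aeval_C, aeval_X, hq]
    exact h0
  have h3 := poly_zero h.cl hx hf
  have hc : ∀ j : Fin 5, d'.qc j = 0 := by
    intro j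
    have h4 := congrArg (fun f => coeff f (j : ℕ)) h3
    simp only [coeff_add, coeff_C_mul, coeff_X_pow, coeff_X, coeff_C, coeff_zero] at h4
    fin_cases j <;> norm_num at h4 <;> exact h4
  apply h.disc
  unfold G4.qI G4.qJ
  simp only [hc]
  ring

end gd

section fin

variable {N : Type} [Field N] [Algebra ℂ N] [IsAlgClosed N] {P : Par} {l al be : N}

/-- the discriminant of the quartic of a node -/
theorem InvPQ.discNe {p q : ℂ[X]} (I : InvPQ P p q) (hl : Transcendental ℂ l)
    (hn : IsNode P l al be) : 4 * qI (ntd P l al be).qc ^ 3 ≠ qJ (ntd P l al be).qc ^ 2 := by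
  rw [I.hI N l al be hn, I.hJ N l al be hn]
  intro h
  have h0 : (al * be) ^ 12 ≠ 0 := pow_ne_zero 12 (mul_ne_zero hn.al0 hn.be0)
  have h1 : aeval l (4 * p ^ 3 - q ^ 2) = 0 := by
    apply (mul_eq_zero.1 _).resolve_left h0
    rw [map_sub, map_mul, map_pow, map_pow, map_ofNat]
    linear_combination h
  exact tr_aeval_ne hl (sub_ne_zero.2 I.disc) h1

/-- The point of the plane model on a line through a node. -/
structure LX (P : Par) (l al be p r s s' : N) : Prop where
  disc : (ntd P l al be).b1 p r ^ 2 = 4 * (ntd P l al be).B2 p r * (ntd P l al be).b0 p r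
  sq : s ^ 2 = (ntd P l al be).B2 p r
  ka : (ntd P l al be).ka p r ≠ 0
  s0 : s ≠ 0
  B2 : (ntd P l al be).B2 p r ≠ 0
  X : (ntd P l al be).Xf p r ∉ cl0 ({l} : Set N)
  q2 : (ntd P l al be).q2 ((ntd P l al be).Xf p r) ≠ 0
  T2 : (ntd P l al be).T2 ((ntd P l al be).Xf p r) ≠ 0
  q4 : (ntd P l al be).q4 ((ntd P l al be).Xf p r) ≠ 0
  w0 : (ntd P l al be).wf p r s ≠ 0
  v0 : (ntd P l al be).vf p r s ≠ 0
  hw : (ntd P l al be).wf p r s ^ 2 = (ntd P l al be).q2 ((ntd P l al be).Xf p r)
  hv : ((ntd P l al be).vf p r s / (al * be)) ^ 2 = qv (cq P l al be) ((ntd P l al be).Xf p r)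
  s' : s' = sp P l al be p r s
  pb : (ntd P l al be).pb ((ntd P l al be).Xf p r) ((ntd P l al be).wf p r s)
    ((ntd P l al be).vf p r s) = p
  rb : (ntd P l al be).rb ((ntd P l al be).Xf p r) ((ntd P l al be).wf p r s)
    ((ntd P l al be).vf p r s) = r
  sb : (ntd P l al be).sb ((ntd P l al be).Xf p r) ((ntd P l al be).wf p r s)
    ((ntd P l al be).vf p r s) = s

theorem gen_facts (hc : NC P) (hl : Transcendental ℂ l) (hn : IsNode P l al be)
    (hd : 4 * qI (ntd P l al be).qc ^ 3 ≠ qJ (ntd P l al be).qc ^ 2) {p r s : N}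
    (hg : p ∉ cl0 ({l} : Set N) ∨ r ∉ cl0 ({l} : Set N))
    (h1 : (ntd P l al be).b1 p r ^ 2 = 4 * (ntd P l al be).B2 p r * (ntd P l al be).b0 p r)
    (hs : s ^ 2 = (ntd P l al be).B2 p r) :
    (ntd P l al be).ka p r ≠ 0 ∧ s ≠ 0 ∧ (ntd P l al be).Xf p r ∉ cl0 ({l} : Set N) ∧
      (ntd P l al be).q2 ((ntd P l al be).Xf p r) ≠ 0 ∧
      (ntd P l al be).T2 ((ntd P l al be).Xf p r) ≠ 0 ∧
      (ntd P l al be).q4 ((ntd P l al be).Xf p r) ≠ 0 := by
  have : CharZero N := charZero_of_injective_algebraMap (algebraMap ℂ N).injective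
  obtain ⟨d', hG, hu⟩ := gd_of P hc hl hn hd
  rw [← hu] at h1 hs ⊢
  obtain ⟨a1, a2, a3, a4, a5⟩ := hG.main hg h1 hs
  exact ⟨a1, a2, a3, a4, a5, hG.nq4 a3⟩

/-- **[GENLINE]: the general line through a node is a general point of the plane model.** -/
theorem NLine.genline (hc : NC P) (hM : P.M1 = 0) (hl : Transcendental ℂ l)
    (hd : 4 * qI (ntd P l al be).qc ^ 3 ≠ qJ (ntd P l al be).qc ^ 2) {p r s s' : N}
    (L : NLine P l al be p r s s') (hg : p ∉ cl0 ({l} : Set N) ∨ r ∉ cl0 ({l} : Set N)) :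
    LX P l al be p r s s' := by
  have : CharZero N := charZero_of_injective_algebraMap (algebraMap ℂ N).injective
  have hn := L.node
  have hdisc := L.disc hM
  have hs := (L.facts hM).1
  obtain ⟨hk, hs0, hX, hq, hT, h4⟩ := gen_facts hc hl hn hd hg hdisc hs
  have he0 : (ntd P l al be).e ≠ 0 := by
    change be - al ≠ 0
    rw [hn.sub]
    intro h
    apply hl
    have : l = algebraMap ℂ N 1 := by rw [map_one]; linear_combination -h
    rw [this]
    exact isAlgebraic_algebraMap _
  have hw2 := TD.wf_sq ntd_e he0 hk hdisc hs hs0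
  have hv2 := TD.vf_sq ntd_e he0 hk hdisc hs hs0 hq
  obtain ⟨b1, b2, b3⟩ := TD.bf ntd_e he0 hk hdisc hs hs0 hq hT
  have hab := mul_ne_zero hn.al0 hn.be0
  refine ⟨hdisc, hs, hk, hs0, ?_, hX, hq, hT, h4, ?_, ?_, hw2, ?_, L.s'_eq hM hs0, b1, b2, b3⟩
  · rw [← hs]
    exact pow_ne_zero 2 hs0
  · exact TD.wf_ne ntd_e he0 hk hdisc hs hs0 hq
  · intro h
    apply h4
    rw [← hv2, h]
    ring
  · rw [qv_cq, div_pow, hv2]

variable {K : Type} [Field K] [Algebra ℂ K] {x₀ : Fin 5 → K}

/-- The cycle of the line as the cycle of the point of the plane model. -/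
theorem LX.nbc_eq {p r s s' : N} (h : LX P l al be p r s s') (hal : al ≠ 0) (hbe : be ≠ 0) :
    nbc P x₀ l al be ((ntd P l al be).Xf p r) ((ntd P l al be).wf p r s)
      ((ntd P l al be).vf p r s / (al * be)) = ncyc P x₀ l al be p r s s' := by
  have h1 : al * be * ((ntd P l al be).vf p r s / (al * be)) = (ntd P l al be).vf p r s := by
    field_simp
  unfold nbc
  rw [h1, h.pb, h.rb, h.sb, ← h.s']

/-- The line of a point of the plane model. -/
structure XL (P : Par) (l al be X w v : N) : Prop where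
  line : NLine P l al be ((ntd P l al be).pb X w (al * be * v))
    ((ntd P l al be).rb X w (al * be * v)) ((ntd P l al be).sb X w (al * be * v))
    (sp P l al be ((ntd P l al be).pb X w (al * be * v)) ((ntd P l al be).rb X w (al * be * v))
      ((ntd P l al be).sb X w (al * be * v)))
  gen : (ntd P l al be).pb X w (al * be * v) ∉ cl0 ({l} : Set N) ∨
    (ntd P l al be).rb X w (al * be * v) ∉ cl0 ({l} : Set N)
  s0 : (ntd P l al be).sb X w (al * be * v) ≠ 0
  hX : (ntd P l al be).Xf ((ntd P l al be).pb X w (al * be * v))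
    ((ntd P l al be).rb X w (al * be * v)) = X
  hw : (ntd P l al be).wf ((ntd P l al be).pb X w (al * be * v))
    ((ntd P l al be).rb X w (al * be * v)) ((ntd P l al be).sb X w (al * be * v)) = w
  hv : (ntd P l al be).vf ((ntd P l al be).pb X w (al * be * v))
    ((ntd P l al be).rb X w (al * be * v)) ((ntd P l al be).sb X w (al * be * v)) = al * be * v
  w0 : w ≠ 0
  v0 : v ≠ 0

theorem XL.of (hc : NC P) (hM : P.M1 = 0) (hl : Transcendental ℂ l) (hn : IsNode P l al be)
    (hd : 4 * qI (ntd P l al be).qc ^ 3 ≠ qJ (ntd P l al be).qc ^ 2) {X w v : N}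
    (hX : X ∉ cl0 ({l} : Set N)) (hw : w ^ 2 = (ntd P l al be).q2 X)
    (hv : v ^ 2 = qv (cq P l al be) X) : XL P l al be X w v := by
  have : CharZero N := charZero_of_injective_algebraMap (algebraMap ℂ N).injective
  obtain ⟨d', hG, hu⟩ := gd_of P hc hl hn hd
  have he0 : (ntd P l al be).e ≠ 0 := by
    change be - al ≠ 0
    rw [hn.sub]
    intro h
    apply hl
    have : l = algebraMap ℂ N 1 := by rw [map_one]; linear_combination -h
    rw [this]
    exact isAlgebraic_algebraMap _
  have hab := mul_ne_zero hn.al0 hn.be0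
  have hv' := v_sq hn hv
  have hT : (ntd P l al be).T2 X ≠ 0 := by
    rw [← hu]
    exact hG.nT2 hX
  have hq : (ntd P l al be).q2 X ≠ 0 := by
    rw [← hu]
    exact hG.nq2 hX
  have h4 : (ntd P l al be).q4 X ≠ 0 := by
    rw [← hu]
    exact hG.nq4 hX
  have hw0 : w ≠ 0 := by
    rintro rfl
    apply hq
    rw [← hw]
    ring
  have hv0 : v ≠ 0 := by
    rintro rfl
    apply h4
    rw [← hv']
    ring
  have hP := TD.pt_b (d := ntd P l al be) ntd_e he0 hT hw0 hw hv'
  have hTT := TD.Sb_T (d := ntd P l al be) ntd_e hT hw hv'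
  have hdisc := TD.disc_b (d := ntd P l al be) ntd_e he0 hT hw0 hw hv'
  have hss := TD.sb_sq (d := ntd P l al be) ntd_e he0 hT hw0 hw hv'
  have hH : 2 * (ntd P l al be).e * (ntd P l al be).q2 X + (ntd P l al be).l *
      (ntd P l al be).Le X ((ntd P l al be).Sb X w (al * be * v)) ≠ 0 := by
    rw [← hu] at hTT ⊢
    exact hG.nH hX hTT
  have hs0 : (ntd P l al be).sb X w (al * be * v) ≠ 0 := by
    unfold TD.sb
    exact div_ne_zero hH (mul_ne_zero he0 hw0)
  have hgen : (ntd P l al be).pb X w (al * be * v) ∉ cl0 ({l} : Set N) ∨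
      (ntd P l al be).rb X w (al * be * v) ∉ cl0 ({l} : Set N) := by
    by_contra hcon
    push Not at hcon
    obtain ⟨m1, m2⟩ := hcon
    have hS := hP.S_eq
    have mpn : (ntd P l al be).pn ∈ cl0 ({l} : Set N) := by
      rw [← hu]
      exact (d'.pn).2
    have mrn : (ntd P l al be).rn ∈ cl0 ({l} : Set N) := by
      rw [← hu]
      exact (d'.rn).2
    have mS : (ntd P l al be).Sb X w (al * be * v) ∈ cl0 ({l} : Set N) := by
      rw [← hS]
      exact add_mem (sub_mem m1 mpn) (sub_mem m2 mrn)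
    apply hX
    refine hG.X_mem mS ?_
    rw [hu]
    exact hTT
  have hk := (gen_facts hc hl hn hd hgen hdisc hss).1
  have hGf : (ntd P l al be).Gf ((ntd P l al be).pb X w (al * be * v))
      ((ntd P l al be).rb X w (al * be * v)) = (ntd P l al be).Gb X w (al * be * v) := by
    unfold TD.Gf
    rw [div_eq_iff hk, ← hP.ka_mul ntd_e]
    ring
  have hXf : (ntd P l al be).Xf ((ntd P l al be).pb X w (al * be * v))
      ((ntd P l al be).rb X w (al * be * v)) = X := by
    unfold TD.Xf
    rw [hGf, hP.X_eq ntd_e]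
  have hSf : (ntd P l al be).Sf ((ntd P l al be).pb X w (al * be * v))
      ((ntd P l al be).rb X w (al * be * v)) = (ntd P l al be).Sb X w (al * be * v) := by
    unfold TD.Sf
    exact hP.S_eq
  have hwf : (ntd P l al be).wf ((ntd P l al be).pb X w (al * be * v))
      ((ntd P l al be).rb X w (al * be * v)) ((ntd P l al be).sb X w (al * be * v)) = w := by
    unfold TD.wf
    rw [hXf, hSf]
    have h5 : (ntd P l al be).e * (ntd P l al be).sb X w (al * be * v) ≠ 0 := mul_ne_zero he0 hs0
    rw [div_eq_iff h5]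
    unfold TD.sb
    field_simp
  refine ⟨nline_of hM hn hdisc hss hs0, hgen, hs0, hXf, hwf, ?_, hw0, hv0⟩
  unfold TD.vf
  rw [hwf, hXf, hSf, div_eq_iff (mul_ne_zero he0 hw0)]
  unfold TD.Sb
  field_simp
  ring

private theorem sp_neg (p r s : N) : sp P l al be p r (-s) = -sp P l al be p r s := by
  unfold sp
  rw [show 2 * -s * (al * be) = -(2 * s * (al * be)) by ring, div_neg]

/-- The conjugate point. -/
theorem nbc_neg (X w v : N) : nbc P x₀ l al be X (-w) (-v) =
    ncyc P x₀ l al be ((ntd P l al be).pb X w (al * be * v))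
      ((ntd P l al be).rb X w (al * be * v)) (-(ntd P l al be).sb X w (al * be * v))
      (-sp P l al be ((ntd P l al be).pb X w (al * be * v))
        ((ntd P l al be).rb X w (al * be * v)) ((ntd P l al be).sb X w (al * be * v))) := by
  have h1 : al * be * -v = -(al * be * v) := by ring
  unfold nbc
  rw [h1, TD.pb_neg, TD.rb_neg, TD.sb_neg, sp_neg]

end fin

end Vale.Agent.P297.Z2
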