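import Vale.Agent.P297.H940.Z2.Top

/-!
The general line through a node is a general point of the plane model.
-/

set_option linter.unusedSectionVars false
set_option linter.unusedVariables false

open Polynomial

namespace Vale.Agent.P297.Z2

open Vale.Agent.P297 Vale.Agent.P297.Gen

/-! ### Elements outside an algebraically closed subfield -/

section out

variable {N : Type} [Field N] [Algebra ℂ N] {F : IntermediateField ℂ N}

theorem poly_zero (hF : ∀ u : N, IsAlgebraic F u → u ∈ F) {x : N} (hx : x ∉ F) {f : F[X]}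
    (hf : aeval x f = 0) : f = 0 := by
  by_contra h
  exact hx (hF x ⟨f, h, hf⟩)

private theorem quad_mem (hF : ∀ u : N, IsAlgebraic F u → u ∈ F) {x a2 a1 a0 : N} (h2 : a2 ∈ F)
    (h1 : a1 ∈ F) (h0 : a0 ∈ F) (h : a2 * x ^ 2 + a1 * x + a0 = 0) (hne : a2 ≠ 0) : x ∈ F := by
  by_contra hx
  have hf : aeval x (C (⟨a2, h2⟩ : F) * X ^ 2 + C (⟨a1, h1⟩ : F) * X + C (⟨a0, h0⟩ : F) : F[X]) =
      0 := by
    simp only [map_add, map_mul, map_pow, aeval_C, aeval_X]
    exact h
  have h3 := poly_zero hF hx hf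
  have h4 := congrArg (fun f => coeff f 2) h3
  simp only [coeff_add, coeff_C_mul, coeff_X_pow, coeff_X, coeff_C, coeff_zero] at h4
  norm_num at h4
  apply hne
  exact congrArg Subtype.val h4

end out

/-- The conditions on the data of a node over an algebraically closed field `F`. -/
structure GD {N : Type} [Field N] [Algebra ℂ N] (F : IntermediateField ℂ N) (d' : TD F) :
    Prop where
  cl : ∀ u : N, IsAlgebraic F u → u ∈ F
  he : d'.e = d'.be - d'.al
  hel : d'.l + d'.e = 1
  al0 : d'.al ≠ 0
  be0 : d'.be ≠ 0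
  e0 : d'.e ≠ 0
  l0 : d'.l ≠ 0
  A0 : d'.A ≠ 0
  C0 : d'.C ≠ 0
  l2 : d'.l ^ 2 - d'.e ^ 2 ≠ 0
  q40 : 4 * d'.al * d'.be + d'.l ^ 2 ≠ 0
  cross : d'.al * d'.A ≠ d'.be * d'.C
  nc : ∀ x, d'.q2 x = 0 → d'.M1 x ≠ 0
  disc : 4 * G4.qI d'.qc ^ 3 ≠ G4.qJ d'.qc ^ 2

section main

variable {N : Type} [Field N] [Algebra ℂ N] [CharZero N] {F : IntermediateField ℂ N} {d' : TD F}

/-- the data over `N` -/
noncomputable def up (d' : TD F) : TD N := d'.map (algebraMap F N)

theorem toX_map (d' : TD F) (x : N) :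
    d'.toX.map ((aeval x : F[X] →ₐ[F] N) : F[X] →+* N) = up d' := by
  simp only [TD.toX, TD.map, up, RingHom.coe_coe, aeval_C]

private theorem aev (x : N) : ((aeval x : F[X] →ₐ[F] N) : F[X] →+* N) X = x := aeval_X x

theorem GD.nT2 (h : GD F d') {x : N} (hx : x ∉ F) : (up d').T2 x ≠ 0 := by
  intro h0
  have h1 := TD.map_T2 d'.toX ((aeval x : F[X] →ₐ[F] N) : F[X] →+* N) X
  rw [toX_map, aev, h0] at h1
  have h2 := poly_zero h.cl hx h1
  exact (d'.top_T2.ne (mul_ne_zero (mul_ne_zero h.al0 h.be0) h.l2)) h2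

theorem GD.nq2 (h : GD F d') {x : N} (hx : x ∉ F) : (up d').q2 x ≠ 0 := by
  intro h0
  have h1 := TD.map_q2 d'.toX ((aeval x : F[X] →ₐ[F] N) : F[X] →+* N) X
  rw [toX_map, aev, h0] at h1
  have h2 := poly_zero h.cl hx h1
  exact (d'.top_q2.ne one_ne_zero) h2

private theorem el1 (h : GD F d') : d'.e + d'.l = 1 := by rw [add_comm, h.hel]

/-- `S` constant implies `X` constant. -/
theorem GD.X_mem (h : GD F d') {x S : N} (hS : S ∈ F)
    (hT : (up d').T2 x * S ^ 2 + (up d').T1 x * S + (up d').T0 x = 0) : x ∈ F := by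
  by_contra hx
  have h1 : ((aeval x : F[X] →ₐ[F] N) : F[X] →+* N)
      (d'.toX.T2 X * C (⟨S, hS⟩ : F) ^ 2 + d'.toX.T1 X * C (⟨S, hS⟩ : F) + d'.toX.T0 X) = 0 := by
    rw [map_add, map_add, map_mul, map_mul, map_pow, TD.map_T2, TD.map_T1, TD.map_T0, toX_map, aev]
    have h2 : ((aeval x : F[X] →ₐ[F] N) : F[X] →+* N) (C (⟨S, hS⟩ : F)) = S := by
      rw [RingHom.coe_coe, aeval_C]
      rfl
    rw [h2]
    exact hT
  have h2 := poly_zero h.cl hx h1
  have h3 := (d'.top_T ⟨S, hS⟩).co
  rw [h2, coeff_zero, el1 h, one_pow] at h3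
  exact zero_ne_one h3

/-- `H` does not vanish. -/
theorem GD.nH (h : GD F d') {x S : N} (hx : x ∉ F)
    (hT : (up d').T2 x * S ^ 2 + (up d').T1 x * S + (up d').T0 x = 0) :
    2 * (up d').e * (up d').q2 x + (up d').l * (up d').Le x S ≠ 0 := by
  intro hH
  have hsum : (d'.al + d'.be) ^ 2 = 4 * d'.al * d'.be + d'.e ^ 2 := by
    rw [h.he]
    ring
  have h1 : ((aeval x : F[X] →ₐ[F] N) : F[X] →+* N)
      (d'.toX.T2 X * (2 * (C d'.e * d'.toX.q2 X +
      C d'.l * (X - C d'.c) * d'.toX.t0 X)) ^ 2 +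
    d'.toX.T1 X * (2 * (C d'.e * d'.toX.q2 X + C d'.l * (X - C d'.c) * d'.toX.t0 X)) *
      (C d'.l * d'.toX.r1 X) + d'.toX.T0 X * (C d'.l * d'.toX.r1 X) ^ 2) = 0 := by
    have hC : ∀ a : F, ((aeval x : F[X] →ₐ[F] N) : F[X] →+* N) (C a) = algebraMap F N a := by
      intro a
      rw [RingHom.coe_coe, aeval_C]
    simp only [map_add, map_mul, map_pow, map_sub, map_ofNat, TD.map_T2, TD.map_T1, TD.map_T0,
      TD.map_q2, TD.map_t0, TD.map_r1, toX_map, aev, hC]
    have hc : algebraMap F N d'.c = (up d').c := TD.map_c d' (algebraMap F N)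
    have hle : algebraMap F N d'.l = (up d').l := rfl
    have hee : algebraMap F N d'.e = (up d').e := rfl
    rw [hc, hle, hee]
    have e1 : 2 * ((up d').e * (up d').q2 x + (up d').l * (x - (up d').c) * (up d').t0 x) =
        (up d').l * (up d').r1 x * S := by
      unfold TD.Le at hH
      linear_combination hH
    rw [e1]
    linear_combination ((up d').l * (up d').r1 x) ^ 2 * hT
  have h2 := poly_zero h.cl hx h1
  have h3 := d'.top_H.co
  rw [h2, coeff_zero, el1 h] at h3
  have h4 : d'.e = 1 - d'.l := by linear_combination h.hel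
  apply mul_ne_zero (pow_ne_zero 2 h.e0) h.q40
  linear_combination h3 - d'.l ^ 2 * hsum

/-! ### The quartic has no double root where `q2 ≠ 0` -/

/-- a common zero of the coefficients of the quadratic equation is a double root of `q2 q4` -/
private theorem no_common (h : GD F d') {x : N} (hxF : x ∈ F) (hq : (up d').q2 x ≠ 0)
    (h2 : (up d').T2 x = 0) (h1 : (up d').T1 x = 0) (h0 : (up d').T0 x = 0) : False := by
  obtain ⟨x', rfl⟩ : ∃ x' : F, algebraMap F N x' = x := ⟨⟨x, hxF⟩, rfl⟩
  have e2 : d'.T2 x' = 0 := by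
    have h3 := TD.map_T2 d' (algebraMap F N) x'
    apply (algebraMap F N).injective
    rw [map_zero, h3]
    exact h2
  have e1 : d'.T1 x' = 0 := by
    have h3 := TD.map_T1 d' (algebraMap F N) x'
    apply (algebraMap F N).injective
    rw [map_zero, h3]
    exact h1
  have e0 : d'.T0 x' = 0 := by
    have h3 := TD.map_T0 d' (algebraMap F N) x'
    apply (algebraMap F N).injective
    rw [map_zero, h3]
    exact h0
  have eq' : d'.q2 x' ≠ 0 := by
    intro h3
    apply hq
    have h4 := TD.map_q2 d' (algebraMap F N) x'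
    rw [h3, map_zero] at h4
    exact h4.symm
  -- divisibility
  have hev : ∀ f : F[X], f.eval x' = 0 → X - C x' ∣ f := fun f hf => dvd_iff_isRoot.2 hf
  have hmap : d'.toX.map (evalRingHom x') = d' := by
    simp only [TD.toX, TD.map, coe_evalRingHom, eval_C]
  have hX : evalRingHom x' (X : F[X]) = x' := by rw [coe_evalRingHom, eval_X]
  have d2 : X - C x' ∣ d'.toX.T2 X := hev _ (by
    have h3 := TD.map_T2 d'.toX (evalRingHom x') X
    rw [hmap, hX, e2] at h3
    exact h3)
  have d1 : X - C x' ∣ d'.toX.T1 X := hev _ (by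
    have h3 := TD.map_T1 d'.toX (evalRingHom x') X
    rw [hmap, hX, e1] at h3
    exact h3)
  have d0 : X - C x' ∣ d'.toX.T0 X := hev _ (by
    have h3 := TD.map_T0 d'.toX (evalRingHom x') X
    rw [hmap, hX, e0] at h3
    exact h3)
  have hd : (X - C x') ^ 2 ∣ d'.toX.e ^ 2 * d'.toX.q2 X * d'.toX.q4 X := by
    rw [← TD.disc_T d'.toX (by
      change C d'.e = C d'.be - C d'.al
      rw [h.he, C_sub]) X]
    have a1 : (X - C x') ^ 2 ∣ d'.toX.T1 X ^ 2 := pow_dvd_pow_of_dvd d1 2
    have a2 : (X - C x') ^ 2 ∣ 4 * d'.toX.T2 X * d'.toX.T0 X := by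
      rw [sq, mul_assoc]
      exact (mul_dvd_mul d2 d0).mul_left 4
    exact dvd_sub a1 a2
  have hco : IsCoprime ((X - C x') ^ 2) (d'.toX.e ^ 2 * d'.toX.q2 X) := by
    apply IsCoprime.pow_left
    refine (Polynomial.irreducible_X_sub_C x').coprime_iff_not_dvd.2 fun h3 => ?_
    have h4 := dvd_iff_isRoot.1 h3
    rw [IsRoot.def, eval_mul, eval_pow] at h4
    have h5 : (d'.toX.e).eval x' = d'.e := eval_C
    have h6 : (d'.toX.q2 X).eval x' = d'.q2 x' := by
      have h7 := TD.map_q2 d'.toX (evalRingHom x') X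
      rw [hmap, hX] at h7
      exact h7
    rw [h5, h6] at h4
    exact mul_ne_zero (pow_ne_zero 2 h.e0) eq' h4
  have h4 : (X - C x') ^ 2 ∣ d'.toX.q4 X := hco.dvd_of_dvd_mul_left hd
  obtain ⟨g, hg⟩ := h4
  have hq4 : d'.toX.q4 X = C (d'.qc 0) + C (d'.qc 1) * X + C (d'.qc 2) * X ^ 2 +
      C (d'.qc 3) * X ^ 3 + C (d'.qc 4) * X ^ 4 := by
    have h5 : ∀ j, d'.toX.qc j = C (d'.qc j) := fun j => (TD.map_qc d' C j).symm
    unfold TD.q4 G4.qv
    rw [h5, h5, h5, h5, h5]
  have r0 : d'.qc 0 + d'.qc 1 * x' + d'.qc 2 * x' ^ 2 + d'.qc 3 * x' ^ 3 + d'.qc 4 * x' ^ 4 = 0 := by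
    have h5 := congrArg (eval x') (hq4.symm.trans hg)
    simp only [eval_add, eval_mul, eval_C, eval_X, eval_pow, eval_sub, sub_self] at h5
    rw [h5]
    ring
  have r1 : d'.qc 1 + 2 * d'.qc 2 * x' + 3 * d'.qc 3 * x' ^ 2 + 4 * d'.qc 4 * x' ^ 3 = 0 := by
    have h5 := congrArg (fun f => eval x' (derivative f)) (hq4.symm.trans hg)
    simp only [derivative_add, derivative_mul, derivative_C, derivative_X,
      derivative_pow, derivative_sub, eval_add, eval_mul, eval_C, eval_X, eval_pow, eval_sub,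
      sub_self, zero_mul, zero_add, mul_one, eval_zero, eval_one] at h5
    norm_num at h5
    linear_combination h5
  apply h.disc
  generalize d'.qc = c at r0 r1
  have c0 : c 0 = c 2 * x' ^ 2 + 2 * c 3 * x' ^ 3 + 3 * c 4 * x' ^ 4 := by
    linear_combination r0 - x' * r1
  have c1 : c 1 = -(2 * c 2 * x' + 3 * c 3 * x' ^ 2 + 4 * c 4 * x' ^ 3) := by
    linear_combination r1
  unfold G4.qI G4.qJ
  rw [c0, c1]
  ring

/-! ### The conic `κ` does not vanish on the general tangent line -/

/-- the equation of the common zeros of `κ` and `M₀` in `θ = ρ / π` -/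
def fE {R : Type} [CommRing R] (d : TD R) (x : R) : R :=
  d.al * d.be * ((d.pn + d.rn) * (x * (d.be + d.al * x)) +
    (1 + x) * (d.be * d.A + d.al * d.C * x ^ 2 - d.c * x)) ^ 2 +
  d.kp * (d.pn * (x * (d.be + d.al * x)) + (d.be * d.A + d.al * d.C * x ^ 2 - d.c * x)) *
    (x * (d.be + d.al * x)) +
  d.kr * (d.rn * (x * (d.be + d.al * x)) + x * (d.be * d.A + d.al * d.C * x ^ 2 - d.c * x)) *
    (x * (d.be + d.al * x)) + d.w0 * (x * (d.be + d.al * x)) ^ 2 -
  d.l * d.e * x * (d.be * d.A + d.al * d.C * x ^ 2 - d.c * x) ^ 2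

theorem map_fE {R R' : Type} [CommRing R] [CommRing R'] (f : R →+* R') (d : TD R) (x : R) :
    f (fE d x) = fE (d.map f) (f x) := by
  simp only [fE, TD.c, TD.map, map_sub, map_add, map_mul, map_pow, map_one]

private theorem mem_of_zeros (h : GD F d') {p r : N} (hk : (up d').ka p r = 0)
    (hm : (up d').M0 p r = 0) : p ∈ F ∧ r ∈ F := by
  have hal : (up d').al ≠ 0 := (_root_.map_ne_zero (algebraMap F N)).2 h.al0
  have hbe : (up d').be ≠ 0 := (_root_.map_ne_zero (algebraMap F N)).2 h.be0
  have hC0 : (up d').C ≠ 0 := (_root_.map_ne_zero (algebraMap F N)).2 h.C0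
  have hA0 : (up d').A ≠ 0 := (_root_.map_ne_zero (algebraMap F N)).2 h.A0
  have he0 : (up d').e ≠ 0 := (_root_.map_ne_zero (algebraMap F N)).2 h.e0
  have he : (up d').e = (up d').be - (up d').al := by
    change algebraMap F N d'.e = algebraMap F N d'.be - algebraMap F N d'.al
    rw [h.he, map_sub]
  have hel : (up d').l + (up d').e = 1 := by
    change algebraMap F N d'.l + algebraMap F N d'.e = 1
    rw [← map_add, h.hel, map_one]
  have mal : (up d').al ∈ F := (d'.al).2
  have mbe : (up d').be ∈ F := (d'.be).2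
  have ml : (up d').l ∈ F := (d'.l).2
  have me : (up d').e ∈ F := (d'.e).2
  have mA : (up d').A ∈ F := (d'.A).2
  have mC : (up d').C ∈ F := (d'.C).2
  have mpn : (up d').pn ∈ F := (d'.pn).2
  have mrn : (up d').rn ∈ F := (d'.rn).2
  have mkp : (up d').kp ∈ F := (d'.kp).2
  have mkr : (up d').kr ∈ F := (d'.kr).2
  have mw0 : (up d').w0 ∈ F := (d'.w0).2
  have mc : (up d').c ∈ F := add_mem (mul_mem mbe mpn) (mul_mem mal mrn)
  have hm' := hm
  have hk' := hk
  unfold TD.M0 at hm'
  unfold TD.ka TD.W at hk'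
  obtain ⟨π, hπ⟩ : ∃ π, p = (up d').pn + π := ⟨p - (up d').pn, by ring⟩
  by_cases h0 : π = 0
  · rw [h0, add_zero] at hπ
    have h1 : (up d').al * (up d').C * (r - (up d').rn) ^ 2 = 0 := by
      rw [hπ] at hm'
      linear_combination -hm'
    have h2 : r - (up d').rn = 0 := by
      have h3 := (mul_eq_zero.1 h1).resolve_left (mul_ne_zero hal hC0)
      exact pow_eq_zero_iff two_ne_zero |>.1 h3
    refine ⟨by rw [hπ]; exact mpn, ?_⟩
    rw [sub_eq_zero.1 h2]
    exact mrn
  obtain ⟨θ, hθ⟩ : ∃ θ, r = (up d').rn + θ * π := ⟨(r - (up d').rn) / π, by field_simp; ring⟩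
  have e1 : π * (θ * ((up d').be + (up d').al * θ)) =
      (up d').be * (up d').A + (up d').al * (up d').C * θ ^ 2 - (up d').c * θ := by
    apply mul_left_cancel₀ (pow_ne_zero 2 h0)
    rw [hπ, hθ] at hm'
    unfold TD.c
    linear_combination hm'
  by_cases hθF : θ ∈ F
  · have hπF : π ∈ F := by
      by_cases h1 : (up d').be + (up d').al * θ = 0
      · rw [hπ, hθ] at hk'
        refine quad_mem h.cl (a2 := (up d').al * (up d').be * (1 + θ) ^ 2 -
          (up d').l * (up d').e * θ)
          (a1 := 2 * (up d').al * (up d').be * ((up d').pn + (up d').rn) * (1 + θ) +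
            (up d').kp + (up d').kr * θ)
          (a0 := (up d').al * (up d').be * ((up d').pn + (up d').rn) ^ 2 + (up d').kp * (up d').pn +
            (up d').kr * (up d').rn + (up d').w0) ?_ ?_ ?_ ?_ ?_
        · exact sub_mem (mul_mem (mul_mem mal mbe) (pow_mem (add_mem (one_mem _) hθF) 2))
            (mul_mem (mul_mem ml me) hθF)
        · have h2F : (2 : N) ∈ F := by
            have := IntermediateField.algebraMap_mem F (2 : ℂ)
            rwa [map_ofNat] at this
          exact add_mem (add_mem (mul_mem (mul_mem (mul_mem (mul_mem h2F mal) mbe)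
            (add_mem mpn mrn)) (add_mem (one_mem _) hθF)) mkp) (mul_mem mkr hθF)
        · exact add_mem (add_mem (add_mem (mul_mem (mul_mem mal mbe) (pow_mem
            (add_mem mpn mrn) 2)) (mul_mem mkp mpn)) (mul_mem mkr mrn)) mw0
        · linear_combination hk'
        · intro h2
          apply mul_ne_zero hbe he0
          have h3 : (up d').al * (1 + θ) = -(up d').e := by
            rw [he]
            linear_combination h1
          have h4 : (up d').l = 1 - (up d').e := by linear_combination hel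
          rw [h4] at h2
          linear_combination (up d').al * h2 - (up d').be * ((up d').al * (1 + θ) - (up d').e) * h3 +
            (1 - (up d').e) * (up d').e * h1
      · have hθ0 : θ ≠ 0 := by
          rintro rfl
          apply mul_ne_zero hbe hA0
          linear_combination -e1
        have h2 : π = ((up d').be * (up d').A + (up d').al * (up d').C * θ ^ 2 - (up d').c * θ) /
            (θ * ((up d').be + (up d').al * θ)) := by
          rw [eq_div_iff (mul_ne_zero hθ0 h1)]
          exact e1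
        rw [h2]
        exact div_mem (sub_mem (add_mem (mul_mem mbe mA) (mul_mem (mul_mem mal mC) (pow_mem hθF 2)))
          (mul_mem mc hθF)) (mul_mem hθF (add_mem mbe (mul_mem mal hθF)))
    refine ⟨by rw [hπ]; exact add_mem mpn hπF, ?_⟩
    rw [hθ]
    exact add_mem mrn (mul_mem hθF hπF)
  · exfalso
    have h1 : fE (up d') θ = 0 := by
      unfold fE
      rw [hπ, hθ] at hk'
      rw [← e1]
      linear_combination (θ * ((up d').be + (up d').al * θ)) ^ 2 * hk'
    have h2 := map_fE ((aeval θ : F[X] →ₐ[F] N) : F[X] →+* N) d'.toX X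
    rw [toX_map, aev, h1] at h2
    have h3 := poly_zero h.cl hθF h2
    have h4 := map_fE (evalRingHom 0) d'.toX X
    rw [h3, map_zero] at h4
    have hmap : d'.toX.map (evalRingHom 0) = d' := by
      simp only [TD.toX, TD.map, coe_evalRingHom, eval_C]
    rw [hmap, coe_evalRingHom, eval_X] at h4
    apply mul_ne_zero (mul_ne_zero h.al0 h.be0) (pow_ne_zero 2 (mul_ne_zero h.be0 h.A0))
    unfold fE at h4
    linear_combination -h4

/-- the discriminant at the zeros of `κ` -/
private theorem disc_ka0 {R : Type} [CommRing R] (d : TD R) {p r : R} (hk : d.ka p r = 0) :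
    d.b1 p r ^ 2 - 4 * d.B2 p r * d.b0 p r =
      16 * (d.M0 p r ^ 2 * (d.l ^ 2 * d.e * (d.e + d.l))) := by
  have h := TD.id_aux d.al d.be d.l d.e d.A d.C p r (p - d.pn) (r - d.rn) (d.ka p r)
  have hW : d.W p r = d.ka p r + d.l * d.e * (p - d.pn) * (r - d.rn) := by
    unfold TD.ka
    ring
  have hM : d.M0 p r = (p - d.pn) * (r - d.rn) * (d.be * p + d.al * r) -
      d.be * d.A * (p - d.pn) ^ 2 - d.al * d.C * (r - d.rn) ^ 2 := rfl
  rw [← hM] at h
  unfold TD.b1 TD.B2 TD.b0 TD.jn TD.g2 TD.g3
  rw [hW, h, hk]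
  ring

theorem GD.ka_ne (h : GD F d') {p r : N} (hg : p ∉ F ∨ r ∉ F)
    (hd : (up d').b1 p r ^ 2 = 4 * (up d').B2 p r * (up d').b0 p r) : (up d').ka p r ≠ 0 := by
  intro hk
  have h1 := disc_ka0 (up d') hk
  rw [hd, sub_self] at h1
  have he0 : (up d').e ≠ 0 := (_root_.map_ne_zero (algebraMap F N)).2 h.e0
  have hl0 : (up d').l ≠ 0 := (_root_.map_ne_zero (algebraMap F N)).2 h.l0
  have hel : (up d').e + (up d').l = 1 := by
    change algebraMap F N d'.e + algebraMap F N d'.l = 1
    rw [← map_add, el1 h, map_one]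
  rw [hel] at h1
  have h2 : (up d').M0 p r = 0 := by
    have h3 : (16 : N) * ((up d').l ^ 2 * (up d').e) ≠ 0 :=
      mul_ne_zero (by norm_num) (mul_ne_zero (pow_ne_zero 2 hl0) he0)
    have h4 : 16 * ((up d').l ^ 2 * (up d').e) * (up d').M0 p r ^ 2 = 0 := by
      linear_combination -h1
    exact pow_eq_zero_iff two_ne_zero |>.1 ((mul_eq_zero.1 h4).resolve_left h3)
  obtain ⟨h3, h4⟩ := mem_of_zeros h hk h2
  rcases hg with hg | hg
  · exact hg h3
  · exact hg h4

/-! ### `X` is not constant -/

theorem up_he (h : GD F d') : (up d').e = (up d').be - (up d').al := by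
  change algebraMap F N d'.e = algebraMap F N d'.be - algebraMap F N d'.al
  rw [h.he, map_sub]

private theorem mem_two : (2 : N) ∈ F := by
  have := IntermediateField.algebraMap_mem F (2 : ℂ)
  rwa [map_ofNat] at this

private theorem mem_four : (4 : N) ∈ F := by
  have := IntermediateField.algebraMap_mem F (4 : ℂ)
  rwa [map_ofNat] at this

/-- values at elements of `F` lie in `F` -/
private theorem up_mem {f : F} {x : N} (h : algebraMap F N f = x) : x ∈ F := h ▸ f.2

theorem GD.Xf_notMem (h : GD F d') {p r : N} (hg : p ∉ F ∨ r ∉ F)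
    (hd : (up d').b1 p r ^ 2 = 4 * (up d').B2 p r * (up d').b0 p r) : (up d').Xf p r ∉ F := by
  intro hX
  have hk := h.ka_ne hg hd
  have hP := TD.pt_f (up_he h) hk hd
  set x := (up d').Xf p r with hx
  set S := (up d').Sf p r with hS
  set G := (up d').Gf p r with hG
  have hT := hP.T_eq (up_he h)
  have he0 : (up d').e ≠ 0 := (_root_.map_ne_zero (algebraMap F N)).2 h.e0
  have hl0 : (up d').l ≠ 0 := (_root_.map_ne_zero (algebraMap F N)).2 h.l0
  obtain ⟨x', hx'⟩ : ∃ x' : F, algebraMap F N x' = x := ⟨⟨x, hX⟩, rfl⟩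
  have m2 : (up d').T2 x ∈ F := up_mem (by rw [← hx']; exact TD.map_T2 d' (algebraMap F N) x')
  have m1 : (up d').T1 x ∈ F := up_mem (by rw [← hx']; exact TD.map_T1 d' (algebraMap F N) x')
  have m0 : (up d').T0 x ∈ F := up_mem (by rw [← hx']; exact TD.map_T0 d' (algebraMap F N) x')
  have mq : (up d').q2 x ∈ F := up_mem (by rw [← hx']; exact TD.map_q2 d' (algebraMap F N) x')
  have mM : (up d').M1 x ∈ F := up_mem (by rw [← hx']; exact TD.map_M1 d' (algebraMap F N) x')
  have my2 : (up d').y2 ∈ F := up_mem (TD.map_y2 d' (algebraMap F N))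
  have my1 : (up d').y1 x ∈ F := up_mem (by rw [← hx']; exact TD.map_y1 d' (algebraMap F N) x')
  have my0 : (up d').y0 x ∈ F := up_mem (by rw [← hx']; exact TD.map_y0 d' (algebraMap F N) x')
  have mc : (up d').c ∈ F := up_mem (TD.map_c d' (algebraMap F N))
  have mal : (up d').al ∈ F := (d'.al).2
  have mbe : (up d').be ∈ F := (d'.be).2
  have ml : (up d').l ∈ F := (d'.l).2
  have me : (up d').e ∈ F := (d'.e).2
  have mA : (up d').A ∈ F := (d'.A).2
  have mC : (up d').C ∈ F := (d'.C).2
  have mpn : (up d').pn ∈ F := (d'.pn).2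
  have mrn : (up d').rn ∈ F := (d'.rn).2
  -- `S ∈ F`
  have hSF : S ∈ F := by
    by_contra hSF
    have hf : aeval S (C (⟨_, m2⟩ : F) * X ^ 2 + C (⟨_, m1⟩ : F) * X + C (⟨_, m0⟩ : F) : F[X]) =
        0 := by
      simp only [map_add, map_mul, map_pow, aeval_C, aeval_X]
      exact hT
    have h3 := poly_zero h.cl hSF hf
    have c2 := congrArg (fun f => coeff f 2) h3
    have c1 := congrArg (fun f => coeff f 1) h3
    have c0 := congrArg (fun f => coeff f 0) h3
    simp only [coeff_add, coeff_C_mul, coeff_X_pow, coeff_X, coeff_C, coeff_zero] at c2 c1 c0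
    norm_num at c2 c1 c0
    have t2 : (up d').T2 x = 0 := congrArg Subtype.val c2
    have t1 : (up d').T1 x = 0 := congrArg Subtype.val c1
    have t0 : (up d').T0 x = 0 := congrArg Subtype.val c0
    by_cases hq : (up d').q2 x = 0
    · have hM : (up d').M1 x ≠ 0 := by
        intro hM
        refine h.nc x' ?_ ?_
        · apply (algebraMap F N).injective
          rw [map_zero, TD.map_q2, hx']
          exact hq
        · apply (algebraMap F N).injective
          rw [map_zero, TD.map_M1, hx']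
          exact hM
      have hlM : (up d').l * (up d').M1 x ≠ 0 := mul_ne_zero hl0 hM
      have a2 : (up d').d2 x = 0 := by
        unfold TD.T2 at t2
        rw [hq] at t2
        apply (mul_eq_zero.1 _).resolve_left hlM
        linear_combination -t2
      have a1 : (up d').d1 x = 0 := by
        unfold TD.T1 at t1
        rw [hq] at t1
        apply (mul_eq_zero.1 _).resolve_left hlM
        linear_combination -t1
      have hal : (up d').al ≠ 0 := (_root_.map_ne_zero (algebraMap F N)).2 h.al0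
      have hbe : (up d').be ≠ 0 := (_root_.map_ne_zero (algebraMap F N)).2 h.be0
      have b1 : (up d').t1 x = 0 := by
        unfold TD.d2 at a2
        have := neg_eq_zero.1 a2
        exact (mul_eq_zero.1 this).resolve_left (mul_ne_zero hal hbe)
      have b0 : (up d').r1 x = 0 := by
        have h5 : (up d').r1 x ^ 2 = 4 * (up d').al * (up d').be * (up d').t0 x * (up d').t1 x +
            (up d').e ^ 2 * (up d').q2 x := by
          unfold TD.r1 TD.t0 TD.t1 TD.q2
          rw [up_he h]
          ring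
        rw [b1, hq, mul_zero, mul_zero, add_zero] at h5
        exact pow_eq_zero_iff two_ne_zero |>.1 h5
      have h6 : (up d').al * (up d').A = (up d').be * (up d').C := by
        unfold TD.t1 at b1
        unfold TD.r1 at b0
        apply mul_left_cancel₀ he0
        rw [up_he h]
        linear_combination b0 - ((up d').al + (up d').be) * b1
      apply h.cross
      apply (algebraMap F N).injective
      rw [map_mul, map_mul]
      exact h6
    · exact no_common h hX hq t2 t1 t0
  -- `G ∈ F`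
  have hGF : G ∈ F := by
    have hW := hP.hW
    have hY := TD.Yn_eq (d := up d') (a := p - (up d').pn + (up d').l * G)
      (b := r - (up d').rn - (up d').l * G) (up_he h) G
    rw [hP.hX, hP.hS] at hY
    have hp1 : (up d').pn + (p - (up d').pn + (up d').l * G) - (up d').l * G = p := by ring
    have hr1 : (up d').rn + (r - (up d').rn - (up d').l * G) + (up d').l * G = r := by ring
    rw [hp1, hr1, hW] at hY
    by_cases hM : (up d').M1 x = 0
    · have hq : (up d').q2 x ≠ 0 := by
        intro hq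
        refine h.nc x' ?_ ?_
        · apply (algebraMap F N).injective
          rw [map_zero, TD.map_q2, hx']
          exact hq
        · apply (algebraMap F N).injective
          rw [map_zero, TD.map_M1, hx']
          exact hM
      have hQ := hP.hQ
      have ha : p - (up d').pn + (up d').l * G = ((x - (up d').c) - (up d').al * S) / (up d').e := by
        rw [eq_div_iff he0, ← hP.hX, ← hP.hS, up_he h]
        ring
      have hb : r - (up d').rn - (up d').l * G = ((up d').be * S - (x - (up d').c)) / (up d').e := by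
        rw [eq_div_iff he0, ← hP.hX, ← hP.hS, up_he h]
        ring
      have h5 : G = (up d').QX x (((x - (up d').c) - (up d').al * S) / (up d').e)
          (((up d').be * S - (x - (up d').c)) / (up d').e) / (up d').q2 x := by
        rw [← ha, ← hb, hQ]
        field_simp
      have ma : ((x - (up d').c) - (up d').al * S) / (up d').e ∈ F :=
        div_mem (sub_mem (sub_mem hX mc) (mul_mem mal hSF)) me
      have mb : ((up d').be * S - (x - (up d').c)) / (up d').e ∈ F :=
        div_mem (sub_mem (mul_mem mbe hSF) (sub_mem hX mc)) me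
      rw [h5]
      refine div_mem ?_ mq
      unfold TD.QX
      exact sub_mem (sub_mem (mul_mem (mul_mem hX ma) mb) (mul_mem (mul_mem mbe mA)
        (pow_mem ma 2))) (mul_mem (mul_mem mal mC) (pow_mem mb 2))
    · have h5 : G = ((up d').y2 * S ^ 2 + (up d').y1 x * S + (up d').y0 x) /
          ((up d').e * (up d').l * (up d').M1 x) := by
        rw [eq_div_iff (mul_ne_zero (mul_ne_zero he0 hl0) hM), hY]
        ring
      rw [h5]
      exact div_mem (add_mem (add_mem (mul_mem my2 (pow_mem hSF 2)) (mul_mem my1 hSF)) my0)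
        (mul_mem (mul_mem me ml) mM)
  -- the end
  have ha : p = (up d').pn - (up d').l * G + ((x - (up d').c) - (up d').al * S) / (up d').e := by
    have h5 : p - (up d').pn + (up d').l * G = ((x - (up d').c) - (up d').al * S) / (up d').e := by
      rw [eq_div_iff he0, ← hP.hX, ← hP.hS, up_he h]
      ring
    rw [← h5]
    ring
  have hb : r = (up d').rn + (up d').l * G + ((up d').be * S - (x - (up d').c)) / (up d').e := by
    have h5 : r - (up d').rn - (up d').l * G = ((up d').be * S - (x - (up d').c)) / (up d').e := by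
      rw [eq_div_iff he0, ← hP.hX, ← hP.hS, up_he h]
      ring
    rw [← h5]
    ring
  rcases hg with hg | hg
  · apply hg
    rw [ha]
    exact add_mem (sub_mem mpn (mul_mem ml hGF))
      (div_mem (sub_mem (sub_mem hX mc) (mul_mem mal hSF)) me)
  · apply hg
    rw [hb]
    exact add_mem (add_mem mrn (mul_mem ml hGF))
      (div_mem (sub_mem (mul_mem mbe hSF) (sub_mem hX mc)) me)

/-- the square root of `A₂` does not vanish -/
theorem GD.s_ne (h : GD F d') {p r s : N} (hg : p ∉ F ∨ r ∉ F)
    (hd : (up d').b1 p r ^ 2 = 4 * (up d').B2 p r * (up d').b0 p r)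
    (hs : s ^ 2 = (up d').B2 p r) : s ≠ 0 := by
  intro h0
  have hk := h.ka_ne hg hd
  have hX := h.Xf_notMem hg hd
  have hP := TD.pt_f (up_he h) hk hd
  have hT := hP.T_eq (up_he h)
  have h1 := hP.sq
  have h2 := TD.Lf_e (up_he h) hP
  rw [← hs, h0, zero_pow two_ne_zero, mul_zero] at h1
  have h3 := pow_eq_zero_iff two_ne_zero |>.1 h1.symm
  apply h.nH hX hT
  linear_combination (up d').e * h3 - (up d').l * h2

/-- **The general line through the node is a general point of the plane model.** -/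
theorem GD.main (h : GD F d') {p r s : N} (hg : p ∉ F ∨ r ∉ F)
    (hd : (up d').b1 p r ^ 2 = 4 * (up d').B2 p r * (up d').b0 p r)
    (hs : s ^ 2 = (up d').B2 p r) :
    (up d').ka p r ≠ 0 ∧ s ≠ 0 ∧ (up d').Xf p r ∉ F ∧ (up d').q2 ((up d').Xf p r) ≠ 0 ∧
      (up d').T2 ((up d').Xf p r) ≠ 0 := by
  have hX := h.Xf_notMem hg hd
  exact ⟨h.ka_ne hg hd, h.s_ne hg hd hs, hX, h.nq2 hX, h.nT2 hX⟩

end main

end Vale.Agent.P297.Z2
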