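import Vale.Agent.P297.H940.Z2.GenFin
import Vale.Agent.P297.H212.Z2.Inst

/-!
The general line through a node: the interface of the glueing.
-/

set_option linter.unusedSectionVars false
set_option linter.unusedVariables false

open Polynomial

namespace Vale.Agent.P297.Z2

open Vale.Agent.P297 Vale.Agent.P297.Gen
open Vale.Agent.P297.H160.Z2Irr Vale.Agent.P297.G4

/-- **[GENLINE]** -/
theorem genLine_fin {N : Type} [Field N] [Algebra ℂ N] [IsAlgClosed N] {P : Par} (hc : NC P)
    (hM : P.M1 = 0) {f g : ℂ[X]} (I : InvPQ P f g) : GenLine P N where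
  fw := by
    intro l al be p r hl hn hd hg
    obtain ⟨s, hs⟩ := IsAlgClosed.exists_pow_nat_eq ((ntd P l al be).B2 p r) (n := 2) (by norm_num)
    obtain ⟨h1, h2, -⟩ := gen_facts hc hl hn (I.discNe hl hn) hg hd hs
    exact ⟨h1, by rw [← hs]; exact pow_ne_zero 2 h2⟩
  bw := by
    intro l al be X w v hl hn hX hw hv
    have hab := mul_ne_zero hn.al0 hn.be0
    have h1 := (XL.of hc hM hl hn (I.discNe hl hn) hX hw (v := v / (al * be)) (by
      rw [qv_cq, div_pow, hv])).s0
    rwa [mul_div_cancel₀ _ hab] at h1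

end Vale.Agent.P297.Z2
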