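import Vale.Agent.P297.H10.Z2.Nd
import Vale.Agent.P297.H637.BL

/-!
Equivariance of the dictionary and of the cycles.
-/

set_option linter.unusedSectionVars false
set_option linter.unusedVariables false

open Polynomial

namespace Vale.Agent.P297.Z2

open Vale.Agent.P297 Vale.Agent.P297.Gen
open Vale.Agent.P297.H160.Z2Irr


section node

variable {k k' : Type} [Field k] [Algebra ℂ k] [Field k'] [Algebra ℂ k'] (P : Par)

theorem map_ntd' (f : k →ₐ[ℂ] k') (l al be : k) :
    (ntd P l al be).map (f : k →+* k') = ntd P (f l) (f al) (f be) := map_ntd f P l al be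

theorem map_sp (f : k →ₐ[ℂ] k') (l al be p r s : k) :
    f (sp P l al be p r s) = sp P (f l) (f al) (f be) (f p) (f r) (f s) := by
  unfold sp
  have h := TD.map_b1 (ntd P l al be) (f : k →+* k') p r
  rw [map_ntd', RingHom.coe_coe] at h
  simp only [map_div₀, map_mul, map_ofNat, h]

/-- The scaled quartic. -/
noncomputable def cq (l al be : k) : Fin 5 → k := fun j => (ntd P l al be).qc j / (al * be) ^ 2

theorem map_cq (f : k →ₐ[ℂ] k') (l al be : k) (j : Fin 5) :
    f (cq P l al be j) = cq P (f l) (f al) (f be) j := by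
  unfold cq
  have h := TD.map_qc (ntd P l al be) (f : k →+* k') j
  rw [map_ntd', RingHom.coe_coe] at h
  rw [map_div₀, map_pow, map_mul, h]

theorem qv_cq (l al be X : k) :
    G4.qv (cq P l al be) X = (ntd P l al be).q4 X / (al * be) ^ 2 := by
  unfold TD.q4 G4.qv cq
  ring

variable {P}

theorem v_sq {l al be X v : k} (h : IsNode P l al be) (hv : v ^ 2 = G4.qv (cq P l al be) X) :
    (al * be * v) ^ 2 = (ntd P l al be).q4 X := by
  have ha := h.al0
  have hb := h.be0
  rw [mul_pow, hv, qv_cq]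
  field_simp

variable (P)

theorem map_datF (f : k →ₐ[ℂ] k') (y : k) : (dat P y).map f = dat P (f y) := map_dat P f y

theorem map_X (f : k →ₐ[ℂ] k') (l p r y S : k) :
    f ((dat P y).X l p r S) = (dat P (f y)).X (f l) (f p) (f r) (f S) := by
  rw [← map_datF]
  simp only [Dat.X, Dat.Kc, Dat.sN, Dat.tN, Dat.h, Dat.g, Dat.K, Dat.J0, Dat.J1, Dat.N, Dat.E,
    Dat.F, Dat.map, map_div₀, map_neg, map_add, map_sub, map_mul, map_pow, map_ofNat]

theorem map_toS (f : k →ₐ[ℂ] k') (l p r y S : k) (j : Fin 5) :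
    f (toS P l p r y S j) = toS P (f l) (f p) (f r) (f y) (f S) j := by
  have hk : f ((dat P y).kap p r) = (dat P (f y)).kap (f p) (f r) := by
    rw [← map_datF]
    simp only [Dat.kap, Dat.E, Dat.F, Dat.map, map_div₀, map_add, map_mul]
  have hs : f ((dat P y).sg l p r S) = (dat P (f y)).sg (f l) (f p) (f r) (f S) := by
    rw [← map_datF]
    simp only [Dat.sg, Dat.sN, Dat.K, Dat.J0, Dat.J1, Dat.N, Dat.E, Dat.F, Dat.map, map_div₀,
      map_neg, map_add, map_sub, map_mul, map_pow, map_ofNat]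
  have ht : f ((dat P y).ta l p r S) = (dat P (f y)).ta (f l) (f p) (f r) (f S) := by
    rw [← map_datF]
    simp only [Dat.ta, Dat.tN, Dat.K, Dat.J0, Dat.J1, Dat.N, Dat.E, Dat.map, map_div₀,
      map_add, map_sub, map_mul, map_pow, map_ofNat]
  fin_cases j
  · exact map_X P f l p r y S
  · exact hk
  · rfl
  · exact hs
  · exact ht

end node

section cycles

variable {K : Type} [Field K] [Algebra ℂ K] {N : Type} [Field N] [Algebra ℂ N] {P : Par}
  {x₀ : Fin 5 → K}

/-- The points are equivariant under automorphisms. -/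
theorem map_pt_equiv (hx : H160.Z2Irr.IsFF P x₀) (g : N ≃ₐ[ℂ] N) (w : Fin 5 → N) :
    Finsupp.mapDomain (fun φ : K →ₐ[ℂ] N => g.toAlgHom.comp φ) (H160.Z2Irr.pt x₀ w) =
      H160.Z2Irr.pt x₀ (fun j => g (w j)) := by
  classical
  by_cases h : ∃ φ : K →ₐ[ℂ] N, ∀ j, φ (x₀ j) = w j
  · obtain ⟨φ, hφ⟩ := h
    rw [pt_eq hx hφ, Finsupp.mapDomain_single]
    refine (pt_eq hx fun j => ?_).symm
    rw [AlgHom.comp_apply, hφ]
    rfl
  · have h' : ¬ ∃ φ : K →ₐ[ℂ] N, ∀ j, φ (x₀ j) = g (w j) := by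
      rintro ⟨φ, hφ⟩
      apply h
      refine ⟨g.symm.toAlgHom.comp φ, fun j => ?_⟩
      rw [AlgHom.comp_apply, hφ]
      exact g.symm_apply_apply _
    unfold H160.Z2Irr.pt
    rw [dif_neg h, dif_neg h', Finsupp.mapDomain_zero]

/-- The cycles of parametrised curves are equivariant. -/
theorem map_cyc [IsAlgClosed N] (hx : H160.Z2Irr.IsFF P x₀) (g : N ≃ₐ[ℂ] N) (l : N) (p r y S : N[X]) :
    Finsupp.mapDomain (fun φ : K →ₐ[ℂ] N => g.toAlgHom.comp φ) (cyc P x₀ l p r y S) =
      cyc P x₀ (g l) (p.map (g : N →+* N)) (r.map (g : N →+* N)) (y.map (g : N →+* N))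
        (S.map (g : N →+* N)) := by
  unfold cyc
  have hev : ∀ (f : N[X]) (z : N), (f.map (g : N →+* N)).eval (g z) = g (f.eval z) := fun f z =>
    Polynomial.eval_map_apply (f := (g : N →+* N)) z
  rw [H637.sum_roots_map g.toAlgHom _ _ (fun z => H160.Z2Irr.pt x₀ (toS P (g l)
    ((p.map (g : N →+* N)).eval z) ((r.map (g : N →+* N)).eval z) ((y.map (g : N →+* N)).eval z)
    ((S.map (g : N →+* N)).eval z))) (fun z _ => by
      rw [map_pt_equiv hx]
      congr 1
      funext j
      change g (toS P l (p.eval z) (r.eval z) (y.eval z) (S.eval z) j) = toS P (g l)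
        ((p.map (g : N →+* N)).eval (g z)) ((r.map (g : N →+* N)).eval (g z))
        ((y.map (g : N →+* N)).eval (g z)) ((S.map (g : N →+* N)).eval (g z)) j
      rw [hev, hev, hev, hev]
      exact map_toS P g.toAlgHom l (p.eval z) (r.eval z) (y.eval z) (S.eval z) j)]
  congr 2
  have h := map_tPhi P (Polynomial.mapAlgHom g.toAlgHom) (C l) p r y S
  have h2 : (Polynomial.mapAlgHom g.toAlgHom) (tPhi P (C l) p r y S) =
      (tPhi P (C l) p r y S).map (g.toAlgHom : N →+* N) := rfl
  rw [← h2, h]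
  simp only [Polynomial.coe_mapAlgHom, Polynomial.map_C]
  rfl

theorem map_ncyc [IsAlgClosed N] (hx : H160.Z2Irr.IsFF P x₀) (g : N ≃ₐ[ℂ] N) (l al be p r s s' : N) :
    Finsupp.mapDomain (fun φ : K →ₐ[ℂ] N => g.toAlgHom.comp φ) (ncyc P x₀ l al be p r s s') =
      ncyc P x₀ (g l) (g al) (g be) (g p) (g r) (g s) (g s') := by
  unfold ncyc
  rw [map_cyc hx]
  simp only [Polynomial.map_add, Polynomial.map_mul, Polynomial.map_C, Polynomial.map_X,
    RingHom.coe_coe, map_neg, Polynomial.map_neg]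

/-- **The cycle of the line with coordinates `(X, w, v)`.** -/
noncomputable def nbc (P : Par) (x₀ : Fin 5 → K) (l al be X w v : N) : (K →ₐ[ℂ] N) →₀ ℤ :=
  ncyc P x₀ l al be ((ntd P l al be).pb X w (al * be * v)) ((ntd P l al be).rb X w (al * be * v))
    ((ntd P l al be).sb X w (al * be * v))
    (sp P l al be ((ntd P l al be).pb X w (al * be * v)) ((ntd P l al be).rb X w (al * be * v))
      ((ntd P l al be).sb X w (al * be * v)))

theorem map_nbc [IsAlgClosed N] (hx : H160.Z2Irr.IsFF P x₀) (g : N ≃ₐ[ℂ] N) (l al be X w v : N) :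
    Finsupp.mapDomain (fun φ : K →ₐ[ℂ] N => g.toAlgHom.comp φ) (nbc P x₀ l al be X w v) =
      nbc P x₀ (g l) (g al) (g be) (g X) (g w) (g v) := by
  unfold nbc
  rw [map_ncyc hx]
  have e1 : g ((ntd P l al be).pb X w (al * be * v)) =
      (ntd P (g l) (g al) (g be)).pb (g X) (g w) (g al * g be * g v) := by
    have h := TD.map_pb (ntd P l al be) (g.toAlgHom : N →+* N) X w (al * be * v)
    rw [map_ntd'] at h
    rw [← map_mul, ← map_mul]
    exact h
  have e2 : g ((ntd P l al be).rb X w (al * be * v)) =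
      (ntd P (g l) (g al) (g be)).rb (g X) (g w) (g al * g be * g v) := by
    have h := TD.map_rb (ntd P l al be) (g.toAlgHom : N →+* N) X w (al * be * v)
    rw [map_ntd'] at h
    rw [← map_mul, ← map_mul]
    exact h
  have e3 : g ((ntd P l al be).sb X w (al * be * v)) =
      (ntd P (g l) (g al) (g be)).sb (g X) (g w) (g al * g be * g v) := by
    have h := TD.map_sb (ntd P l al be) (g.toAlgHom : N →+* N) X w (al * be * v)
    rw [map_ntd'] at h
    rw [← map_mul, ← map_mul]
    exact h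
  have e4 := map_sp P g.toAlgHom l al be ((ntd P l al be).pb X w (al * be * v))
    ((ntd P l al be).rb X w (al * be * v)) ((ntd P l al be).sb X w (al * be * v))
  change g _ = sp P (g l) (g al) (g be) (g _) (g _) (g _) at e4
  rw [e4, e1, e2, e3]

end cycles

end Vale.Agent.P297.Z2
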