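import Vale.Agent.P297.H10.Z2.TDMap
import Vale.Agent.P297.Gen.Setup

/-!
Top coefficients of the polynomials of the plane model; no common zeros.
-/

set_option linter.unusedSectionVars false
set_option linter.unusedVariables false

open Polynomial

namespace Vale.Agent.P297.Z2

open Vale.Agent.P297 Vale.Agent.P297.Gen

/-- the degree is at most `n` and the coefficient of degree `n` is `c` -/
structure Top {R : Type} [CommRing R] (f : R[X]) (n : ℕ) (c : R) : Prop where
  deg : f.natDegree ≤ n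
  co : f.coeff n = c

section top

variable {R : Type} [CommRing R] {f g : R[X]} {n m : ℕ} {a b : R}

theorem Top.x : Top (X : R[X]) 1 1 := ⟨natDegree_X_le, coeff_X_one⟩

theorem Top.c (a : R) : Top (C a) 0 a := ⟨(natDegree_C a).le, coeff_C_zero⟩

theorem Top.mul (hf : Top f n a) (hg : Top g m b) : Top (f * g) (n + m) (a * b) :=
  ⟨natDegree_mul_le_of_le hf.deg hg.deg, by
    rw [coeff_mul_add_eq_of_natDegree_le hf.deg hg.deg, hf.co, hg.co]⟩

theorem Top.add (hf : Top f n a) (hg : Top g n b) : Top (f + g) n (a + b) :=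
  ⟨natDegree_add_le_of_degree_le hf.deg hg.deg, by rw [coeff_add, hf.co, hg.co]⟩

theorem Top.neg (hf : Top f n a) : Top (-f) n (-a) :=
  ⟨by rw [natDegree_neg]; exact hf.deg, by rw [coeff_neg, hf.co]⟩

theorem Top.sub (hf : Top f n a) (hg : Top g n b) : Top (f - g) n (a - b) := by
  rw [sub_eq_add_neg, sub_eq_add_neg]
  exact hf.add hg.neg

theorem Top.pow (hf : Top f n a) (k : ℕ) : Top (f ^ k) (k * n) (a ^ k) := by
  refine ⟨natDegree_pow_le_of_le k hf.deg, ?_⟩
  have h := coeff_pow_of_natDegree_le (m := k) hf.deg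
  rw [h, hf.co]

theorem Top.lift (hf : Top f n a) (h : n < m) : Top f m 0 :=
  ⟨hf.deg.trans h.le, coeff_eq_zero_of_natDegree_lt (hf.deg.trans_lt h)⟩

theorem Top.ne (hf : Top f n a) (ha : a ≠ 0) : f ≠ 0 := by
  rintro rfl
  apply ha
  rw [← hf.co, coeff_zero]

theorem Top.cast (hf : Top f n a) (h : n = m) (h' : a = b) : Top f m b := by
  subst h h'
  exact hf

theorem Top.two : Top (2 : R[X]) 0 2 := Top.c 2

theorem Top.four : Top (4 : R[X]) 0 4 := Top.c 4

end top


section ring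

variable {R : Type} [CommRing R] (d : TD R)

/-- the polynomials -/
noncomputable def TD.toX : TD R[X] := d.map Polynomial.C

theorem TD.top_q2 : Top (d.toX.q2 X) 2 1 := by
  have h : d.toX.q2 X = X ^ 2 - Polynomial.C (4 * d.al * d.be * d.A * d.C) := by
    simp only [TD.q2, TD.toX, TD.map, C_mul]
    rfl
  rw [h]
  refine ((Top.x.pow 2).cast (by norm_num) (one_pow 2)).sub ((Top.c _).lift (by norm_num)) |>.cast
    rfl (sub_zero 1)

theorem TD.top_t0 : Top (d.toX.t0 X) 1 1 := by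
  have h : d.toX.t0 X = X + Polynomial.C (d.be * d.A + d.al * d.C) := by
    simp only [TD.t0, TD.toX, TD.map, C_mul, C_add]
    ring
  rw [h]
  exact (Top.x.add ((Top.c _).lift (by norm_num))).cast rfl (add_zero 1)

theorem TD.top_t1 : Top (d.toX.t1 X) 1 1 := by
  have h : d.toX.t1 X = X + Polynomial.C (d.al * d.A + d.be * d.C) := by
    simp only [TD.t1, TD.toX, TD.map, C_mul, C_add]
    ring
  rw [h]
  exact (Top.x.add ((Top.c _).lift (by norm_num))).cast rfl (add_zero 1)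

theorem TD.top_r1 : Top (d.toX.r1 X) 1 (d.al + d.be) := by
  have h : d.toX.r1 X = Polynomial.C (d.al + d.be) * X + Polynomial.C (2 * d.al * d.be * (d.A + d.C)) := by
    simp only [TD.r1, TD.toX, TD.map, C_mul, C_add]
    rfl
  rw [h]
  exact (((Top.c _).mul Top.x).add ((Top.c _).lift (by norm_num))).cast rfl (by ring)

theorem TD.top_xi : Top (X - Polynomial.C d.c) 1 1 :=
  (Top.x.sub ((Top.c _).lift (by norm_num))).cast rfl (sub_zero 1)

theorem TD.toX_c : d.toX.c = Polynomial.C d.c := by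
  simp only [TD.c, TD.toX, TD.map, C_mul, C_add]

theorem TD.top_M1 : Top (d.toX.M1 X) 1 d.l := by
  have h : d.toX.M1 X = Polynomial.C (d.kr - d.kp) + Polynomial.C d.l * d.toX.t0 X := by
    simp only [TD.M1, TD.toX, TD.map, C_sub]
  rw [h]
  exact (((Top.c _).lift (by norm_num)).add ((Top.c _).mul d.top_t0)).cast rfl (by ring)

theorem TD.top_d2 : Top (d.toX.d2 X) 1 (-(d.al * d.be)) := by
  have h : d.toX.d2 X = -(Polynomial.C (d.al * d.be) * d.toX.t1 X) := by
    simp only [TD.d2, TD.toX, TD.map, C_mul]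
  rw [h]
  exact (((Top.c _).mul d.top_t1).neg).cast rfl (by ring)

theorem TD.top_d1 : Top (d.toX.d1 X) 2 (d.al + d.be) := by
  unfold TD.d1
  rw [TD.toX_c]
  exact (d.top_r1.mul d.top_xi).cast rfl (by ring)

theorem TD.top_d0 : Top (d.toX.d0 X) 3 (-1) := by
  unfold TD.d0
  rw [TD.toX_c]
  exact ((d.top_t0.mul (d.top_xi.pow 2)).neg).cast rfl (by ring)

theorem TD.top_y2 : Top (d.toX.y2) 0 (-(d.e * d.al * d.be)) := by
  have h : d.toX.y2 = Polynomial.C (-(d.e * d.al * d.be)) := by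
    simp only [TD.y2, TD.toX, TD.map, C_mul, C_neg]
  rw [h]
  exact Top.c _

theorem TD.top_y1 : Top (d.toX.y1 X) 1 (-(d.l * (d.al + d.be))) := by
  have h : d.toX.y1 X = -(Polynomial.C d.l * d.toX.r1 X) +
      Polynomial.C (-(2 * d.e * d.al * d.be * (d.pn + d.rn)) + d.al * d.kp - d.be * d.kr) := by
    simp only [TD.y1, TD.toX, TD.map, C_mul, C_neg, C_add, C_sub]
    rw [show (Polynomial.C (2 : R) : R[X]) = 2 from rfl]
    ring
  rw [h]
  exact ((((Top.c _).mul d.top_r1).neg).add ((Top.c _).lift (by norm_num))).cast rfl (by ring)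

theorem TD.top_y0 : Top (d.toX.y0 X) 2 (d.e + 2 * d.l) := by
  have h : d.toX.y0 X = Polynomial.C d.e * d.toX.q2 X + Polynomial.C (2 * d.l) * (X - Polynomial.C d.c) * d.toX.t0 X +
      (Polynomial.C (d.kr - d.kp) * X + Polynomial.C (-(d.e * d.al * d.be * (d.pn + d.rn) ^ 2) -
        d.kp * (d.e * d.pn - d.c) - d.kr * (d.e * d.rn + d.c) - d.e * d.w0)) := by
    unfold TD.y0
    rw [TD.toX_c]
    simp only [TD.toX, TD.map, C_mul, C_neg, C_add, C_sub, C_pow]
    rw [show (Polynomial.C (2 : R) : R[X]) = 2 from rfl]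
    ring
  rw [h]
  have h1 : Top (Polynomial.C (d.kr - d.kp) * X + Polynomial.C (-(d.e * d.al * d.be * (d.pn + d.rn) ^ 2) -
        d.kp * (d.e * d.pn - d.c) - d.kr * (d.e * d.rn + d.c) - d.e * d.w0)) 1
        (d.kr - d.kp) :=
    (((Top.c _).mul Top.x).add ((Top.c _).lift (by norm_num))).cast rfl (by ring)
  exact ((((Top.c _).mul d.top_q2).cast rfl rfl).add
    ((((Top.c _).mul d.top_xi).mul d.top_t0).cast rfl rfl) |>.add
      (h1.lift (by norm_num))).cast rfl (by ring)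

theorem TD.top_T2 : Top (d.toX.T2 X) 2 (d.al * d.be * (d.l ^ 2 - d.e ^ 2)) := by
  have h : d.toX.T2 X = Polynomial.C d.e * d.toX.q2 X * d.toX.y2 - Polynomial.C d.l * d.toX.M1 X * d.toX.d2 X := rfl
  rw [h]
  exact ((((Top.c _).mul d.top_q2).mul d.top_y2).sub
    (((Top.c _).mul d.top_M1).mul d.top_d2)).cast rfl (by ring)

theorem TD.top_T1 : Top (d.toX.T1 X) 3 (-(d.l * (d.al + d.be) * (d.e + d.l))) := by
  have h : d.toX.T1 X = Polynomial.C d.e * d.toX.q2 X * d.toX.y1 X - Polynomial.C d.l * d.toX.M1 X * d.toX.d1 X := rfl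
  rw [h]
  exact ((((Top.c _).mul d.top_q2).mul d.top_y1).sub
    (((Top.c _).mul d.top_M1).mul d.top_d1)).cast rfl (by ring)

theorem TD.top_T0 : Top (d.toX.T0 X) 4 ((d.e + d.l) ^ 2) := by
  have h : d.toX.T0 X = Polynomial.C d.e * d.toX.q2 X * d.toX.y0 X - Polynomial.C d.l * d.toX.M1 X * d.toX.d0 X := rfl
  rw [h]
  exact ((((Top.c _).mul d.top_q2).mul d.top_y0).sub
    (((Top.c _).mul d.top_M1).mul d.top_d0)).cast rfl (by ring)

/-- the equation in `X` for a given `S` -/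
theorem TD.top_T (S : R) : Top (d.toX.T2 X * Polynomial.C S ^ 2 + d.toX.T1 X * Polynomial.C S + d.toX.T0 X) 4
    ((d.e + d.l) ^ 2) := by
  have h2 : Top (Polynomial.C S ^ 2 : R[X]) 0 (S ^ 2) := ((Top.c S).pow 2).cast (by norm_num) rfl
  exact ((((d.top_T2.mul h2).lift (by norm_num)).add ((d.top_T1.mul (Top.c S)).lift
    (by norm_num))).add d.top_T0).cast rfl (by ring)

/-- `n = 2 (e q2 + l ξ t0)`, the numerator of the zero of `H` -/
theorem TD.top_n : Top (2 * (Polynomial.C d.e * d.toX.q2 X + Polynomial.C d.l * (X - Polynomial.C d.c) * d.toX.t0 X)) 2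
    (2 * (d.e + d.l)) := by
  exact (Top.two.mul (((Top.c _).mul d.top_q2).add
    (((Top.c _).mul d.top_xi).mul d.top_t0))).cast rfl (by ring)

/-- the resultant of `H` and of the quadratic equation -/
theorem TD.top_H : Top (d.toX.T2 X * (2 * (Polynomial.C d.e * d.toX.q2 X +
      Polynomial.C d.l * (X - Polynomial.C d.c) * d.toX.t0 X)) ^ 2 +
    d.toX.T1 X * (2 * (Polynomial.C d.e * d.toX.q2 X + Polynomial.C d.l * (X - Polynomial.C d.c) * d.toX.t0 X)) *
      (Polynomial.C d.l * d.toX.r1 X) + d.toX.T0 X * (Polynomial.C d.l * d.toX.r1 X) ^ 2) 6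
    (4 * (d.al * d.be * (d.l ^ 2 - d.e ^ 2)) * (d.e + d.l) ^ 2 -
      2 * (d.l ^ 2 * (d.al + d.be) ^ 2 * (d.e + d.l) ^ 2) +
      (d.e + d.l) ^ 2 * (d.l ^ 2 * (d.al + d.be) ^ 2)) := by
  exact (((d.top_T2.mul (d.top_n.pow 2)).add
    ((d.top_T1.mul d.top_n).mul ((Top.c d.l).mul d.top_r1))).add
    (d.top_T0.mul (((Top.c d.l).mul d.top_r1).pow 2))).cast rfl (by ring)

end ring


end Vale.Agent.P297.Z2
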